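import Vale.Agent.P272.Sz.CoreC
import Vale.Agent.P272.H696.S12
set_option linter.unusedSectionVars false

/-!
# P272, the core of XRA (second copy; statement of note 12858 (B))
-/

namespace Vale.Agent.P272.Sz

open Matrix Complex Metric MeasureTheory Set Filter Topology
open scoped ComplexOrder Real

variable {ι : Type*} [Fintype ι] [DecidableEq ι]

/-- The constant `exp(-2(B + √(2B)))`. -/
noncomputable def xx (B : ℝ) : ℝ := Real.exp (-2 * (B + Real.sqrt (2 * B)))

theorem integral_one_div_pi : ∫ _z in ball (0 : ℂ) 1, (1 / π : ℝ) = 1 := by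
  rw [setIntegral_const, Measure.real, Complex.volume_ball]
  simp [Real.pi_ne_zero]

theorem integral_normsq : ∫ z in ball (0 : ℂ) 1, ‖z‖ ^ 2 / π = 1 / 2 := by
  have hc : ContinuousOn (fun z : ℂ => ‖z‖ ^ 2 / π) (closedBall 0 1) := by fun_prop
  obtain ⟨_, h⟩ := integral_ball_circle hc
  rw [h]
  have h2 : ∀ r ∈ Ioo (0 : ℝ) 1, 2 * π * r * Real.circleAverage (fun z : ℂ => ‖z‖ ^ 2 / π) 0 r =
      2 * r ^ 3 := by
    intro r hr
    have h3 := circleAverage_radial (fun _ => (1 : ℝ)) (fun t => t ^ 2 / π) hr.1.le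
    simp only [mul_one] at h3
    rw [h3, Real.circleAverage_const]
    have := Real.pi_ne_zero
    field_simp
  rw [setIntegral_congr_fun measurableSet_Ioo h2, ← integral_Ioc_eq_integral_Ioo,
    ← intervalIntegral.integral_of_le zero_le_one]
  rw [intervalIntegral.integral_const_mul, integral_pow]
  norm_num

theorem core_star {P : ℂ → Matrix ι ι ℂ} (hPc : ContinuousOn P (closedBall 0 1))
    (hP : ∀ z ∈ closedBall (0 : ℂ) 1, (P z).PosDef) {u : ℂ → ι → ℂ}
    (hu : DifferentiableOn ℂ u (ball 0 1)) {Q : Matrix ι ι ℂ} {C τ : ℝ}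
    (hC : 0 ≤ C) (hτ : 0 ≤ τ)
    (ha : ∀ p : ι → Polynomial ℂ, qf Q (fun i => (p i).eval 0) +
      ∫ z in ball (0 : ℂ) 1, ‖z‖ ^ 2 / π * qf (P z) (fun i => (p i).eval z) ≤
      Real.circleAverage (fun z => qf (P z) (fun i => (p i).eval z)) 0 1)
    (hb : ∀ p : ι → Polynomial ℂ, ∫ z in ball (0 : ℂ) 1, 1 / π * qf (P z) (fun i => (p i).eval z) ≤
      Real.circleAverage (fun z => qf (P z) (fun i => (p i).eval z)) 0 1 +
        C * qf Q (fun i => (p i).eval 0))
    (hc : Real.circleAverage (fun z => Real.log (P z).det.re) 0 1 - τ ≤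
      ∫ z in ball (0 : ℂ) 1, 1 / π * Real.log (P z).det.re)
    (hint : IntegrableOn (fun z => (1 - ‖z‖ ^ 2) / π * qf (P z) (u z)) (ball 0 1))
    (hpos : 0 < qf Q (u 0)) {δ : ℝ} (hδ : 0 < δ) :
    qf Q (u 0) * (xx (Fintype.card ι * C + τ + δ) / (2 - xx (Fintype.card ι * C + τ + δ))) ≤
      ∫ z in ball (0 : ℂ) 1, (1 - ‖z‖ ^ 2) / π * qf (P z) (u z) := by
  have hsph : sphere (0 : ℂ) 1 ⊆ closedBall 0 1 := sphere_subset_closedBall
  obtain ⟨v, hv, hq0, hvdet⟩ := szego_frame (hPc.mono hsph) (fun z hz => hP z (hsph hz)) hδ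
  set n : ℝ := (Fintype.card ι : ℝ) with hn
  set B : ℝ := n * C + τ + δ with hB
  have hBpos : 0 < B := by
    have : 0 ≤ n * C := mul_nonneg (Nat.cast_nonneg _) hC
    linarith
  have hvu : IsUnit (ev v 0).det := by
    rw [det_ev, isUnit_iff_ne_zero]
    exact hq0
  set c : ι → ℂ := (ev v 0)⁻¹ *ᵥ u 0 with hcdef
  have hcu : ev v 0 *ᵥ c = u 0 := by
    rw [hcdef, mulVec_mulVec, mul_nonsing_inv _ hvu, one_mulVec]
  have hc0 : c ≠ 0 := by
    intro h
    rw [← hcu, h, mulVec_zero] at hpos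
    simp [qf] at hpos
  set S : ℝ := ∑ a, ‖c a‖ ^ 2 with hS
  have hSpos : 0 < S := by
    obtain ⟨i, hi⟩ := Function.ne_iff.1 hc0
    refine Finset.sum_pos' (fun a _ => by positivity) ⟨i, Finset.mem_univ i, ?_⟩
    exact pow_pos (norm_pos_iff.2 hi) 2
  -- polynomial vectors
  have hpoly : ∀ (d : ι → ℂ) (z : ℂ),
      (fun a => (∑ b, v a b * Polynomial.C (d b)).eval z) = ev v z *ᵥ d := by
    intro d z
    ext a
    simp [ev, mulVec, dotProduct, Polynomial.eval_finsetSum]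
  have ha' : ∀ d : ι → ℂ, qf Q (ev v 0 *ᵥ d) +
      ∫ z in ball (0 : ℂ) 1, ‖z‖ ^ 2 / π * qf (P z) (ev v z *ᵥ d) ≤ ∑ a, ‖d a‖ ^ 2 := by
    intro d
    have h1 := ha (fun a => ∑ b, v a b * Polynomial.C (d b))
    simp only [hpoly] at h1
    exact h1.trans (le_of_eq (hv d))
  have hb' : ∀ d : ι → ℂ, ∫ z in ball (0 : ℂ) 1, 1 / π * qf (P z) (ev v z *ᵥ d) ≤
      ∑ a, ‖d a‖ ^ 2 + C * qf Q (ev v 0 *ᵥ d) := by
    intro d
    have h1 := hb (fun a => ∑ b, v a b * Polynomial.C (d b))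
    simp only [hpoly] at h1
    exact h1.trans (le_of_eq (congrArg₂ (· + ·) (hv d) rfl))
  have hqnn : ∀ (d : ι → ℂ) (z : ℂ), z ∈ closedBall (0 : ℂ) 1 → 0 ≤ qf (P z) (ev v z *ᵥ d) :=
    fun d z hz => qf_nonneg (hP z hz).posSemidef _
  have hQle : ∀ d : ι → ℂ, qf Q (ev v 0 *ᵥ d) ≤ ∑ a, ‖d a‖ ^ 2 := by
    intro d
    have h1 := ha' d
    have h2 : 0 ≤ ∫ z in ball (0 : ℂ) 1, ‖z‖ ^ 2 / π * qf (P z) (ev v z *ᵥ d) := by
      refine setIntegral_nonneg measurableSet_ball fun z hz => ?_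
      exact mul_nonneg (by positivity) (hqnn d z (ball_subset_closedBall hz))
    linarith
  have hDc : ContinuousOn (DD P v) (closedBall 0 1) := DD_cont hPc hP v
  have hfc : ∀ d : ι → ℂ, ContinuousOn (fun z => qf (P z) (ev v z *ᵥ d)) (closedBall 0 1) :=
    fun d => qf_contOn hPc (ev_mulVec_cont v d).continuousOn
  have hio : ∀ {f : ℂ → ℝ}, ContinuousOn f (closedBall 0 1) → IntegrableOn f (ball 0 1) :=
    fun hf => (hf.integrableOn_compact (isCompact_closedBall 0 1)).mono_set ball_subset_closedBall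
  -- (α)
  have hsum1 : ∀ k : ι, ∑ a, ‖(Pi.single k 1 : ι → ℂ) a‖ ^ 2 = 1 := by
    intro k
    rw [Finset.sum_eq_single k]
    · simp
    · intro b _ hb
      simp [Pi.single_eq_of_ne hb]
    · intro h
      exact absurd (Finset.mem_univ _) h
  have hα : ∫ z in ball (0 : ℂ) 1, 1 / π * DD P v z ≤ B := by
    have hlc : ContinuousOn (fun z => Real.log (P z).det.re) (closedBall 0 1) := logdet_contOn hPc hP
    have e1 : ∀ z, 1 / π * DD P v z = (∑ k, 1 / π * qf (P z) (ev v z *ᵥ Pi.single k 1)) -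
        1 / π * Real.log (P z).det.re - (n + 2 * Real.log ‖v.det.eval 0‖) * (1 / π) := by
      intro z
      rw [DD, ← Finset.mul_sum]
      ring
    simp only [e1]
    have j1 : ∀ k ∈ (Finset.univ : Finset ι), IntegrableOn
        (fun z => 1 / π * qf (P z) (ev v z *ᵥ Pi.single k 1)) (ball 0 1) :=
      fun k _ => hio (continuousOn_const.mul (hfc _))
    have j2 : IntegrableOn (fun z => ∑ k, 1 / π * qf (P z) (ev v z *ᵥ Pi.single k 1)) (ball 0 1) :=
      hio (continuousOn_finsetSum _ fun k _ => continuousOn_const.mul (hfc _))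
    have j3 : IntegrableOn (fun z => 1 / π * Real.log (P z).det.re) (ball 0 1) :=
      hio (continuousOn_const.mul hlc)
    have j4 : IntegrableOn (fun z => (∑ k, 1 / π * qf (P z) (ev v z *ᵥ Pi.single k 1)) -
        1 / π * Real.log (P z).det.re) (ball 0 1) := j2.sub j3
    have j5 : IntegrableOn (fun _ : ℂ => (n + 2 * Real.log ‖v.det.eval 0‖) * (1 / π)) (ball 0 1) :=
      hio continuousOn_const
    have hk : ∫ _z in ball (0 : ℂ) 1, (n + 2 * Real.log ‖v.det.eval 0‖) * (1 / π) =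
        n + 2 * Real.log ‖v.det.eval 0‖ := by
      rw [integral_const_mul, integral_one_div_pi, mul_one]
    rw [integral_sub j4 j5, integral_sub j2 j3, integral_finsetSum _ j1, hk]
    have h1 : ∑ k : ι, ∫ z in ball (0 : ℂ) 1, 1 / π * qf (P z) (ev v z *ᵥ Pi.single k 1) ≤
        ∑ _k : ι, (1 + C) := by
      refine Finset.sum_le_sum fun k _ => ?_
      have h2 := hb' (Pi.single k 1)
      have h3 := hQle (Pi.single k 1)
      rw [hsum1] at h2 h3
      have h4 : C * qf Q (ev v 0 *ᵥ Pi.single k 1) ≤ C * 1 := mul_le_mul_of_nonneg_left h3 hC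
      linarith
    rw [Finset.sum_const, Finset.card_univ, nsmul_eq_mul, ← hn] at h1
    rw [hB]
    nlinarith
  -- (β)
  have hsr : ∀ r : ℝ, r < 1 → sphere (0 : ℂ) r ⊆ closedBall 0 1 := fun r hr =>
    sphere_subset_closedBall.trans (closedBall_subset_closedBall hr.le)
  have hDavg : ∀ r, 0 < r → r < 1 → 0 ≤ Real.circleAverage (DD P v) 0 r := fun r hr hr1 =>
    avg_DD_nonneg hr (hPc.mono (hsr r hr1)) (fun z hz => hP z (hsr r hr1 hz)) hq0
  have hk1 : Continuous fun t : ℝ => 2 * (1 - t ^ 2) / π := by fun_prop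
  have hk2 : Continuous fun t : ℝ => 2 * t ^ 2 / π := by fun_prop
  have hk1' : ∀ r : ℝ, 0 ≤ r → r ≤ 1 → 0 ≤ 2 * (1 - r ^ 2) / π := by
    intro r h0 h1
    have : r ^ 2 ≤ 1 := pow_le_one₀ h0 h1
    have hpi := Real.pi_pos
    apply div_nonneg _ hpi.le
    linarith
  have hk2' : ∀ r : ℝ, 0 ≤ r → r ≤ 1 → 0 ≤ 2 * r ^ 2 / π := by
    intro r h0 h1
    positivity
  have hz : ContinuousOn (fun _ : ℂ => (0 : ℝ)) (closedBall 0 1) := continuousOn_const
  have hβ1 : 0 ≤ ∫ z in ball (0 : ℂ) 1, 2 * (1 - ‖z‖ ^ 2) / π * DD P v z := by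
    have := radial_mono_lt hk1 hk1' one_pos le_rfl hDc hz (fun r hr hr1 => by
      rw [Real.circleAverage_const]
      exact hDavg r hr hr1)
    simpa using this
  have hβ2 : 0 ≤ ∫ z in ball (0 : ℂ) 1, 2 * ‖z‖ ^ 2 / π * DD P v z := by
    have := radial_mono_lt hk2 hk2' one_pos le_rfl hDc hz (fun r hr hr1 => by
      rw [Real.circleAverage_const]
      exact hDavg r hr hr1)
    simpa using this
  have hn1 : ContinuousOn (fun z : ℂ => 2 * (1 - ‖z‖ ^ 2) / π) (closedBall 0 1) := by fun_prop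
  have hn2 : ContinuousOn (fun z : ℂ => 2 * ‖z‖ ^ 2 / π) (closedBall 0 1) := by fun_prop
  have hβ : (∫ z in ball (0 : ℂ) 1, 2 * (1 - ‖z‖ ^ 2) / π * DD P v z) +
      ∫ z in ball (0 : ℂ) 1, 2 * ‖z‖ ^ 2 / π * DD P v z =
      2 * ∫ z in ball (0 : ℂ) 1, 1 / π * DD P v z := by
    have i1 : IntegrableOn (fun z : ℂ => 2 * (1 - ‖z‖ ^ 2) / π * DD P v z) (ball 0 1) :=
      hio (hn1.mul hDc)
    have i2 : IntegrableOn (fun z : ℂ => 2 * ‖z‖ ^ 2 / π * DD P v z) (ball 0 1) :=
      hio (hn2.mul hDc)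
    rw [← integral_add i1 i2, ← integral_const_mul]
    congr 1
    ext z
    ring
  -- masses of the weights
  have hm2 : ∫ z in ball (0 : ℂ) 1, 2 * ‖z‖ ^ 2 / π = 1 := by
    have : ∀ z : ℂ, 2 * ‖z‖ ^ 2 / π = 2 * (‖z‖ ^ 2 / π) := fun z => by ring
    simp only [this]
    rw [integral_const_mul, integral_normsq]
    norm_num
  have hm1 : ∫ z in ball (0 : ℂ) 1, 2 * (1 - ‖z‖ ^ 2) / π = 1 := by
    have : ∀ z : ℂ, 2 * (1 - ‖z‖ ^ 2) / π = 2 * (1 / π) - 2 * ‖z‖ ^ 2 / π := fun z => by ring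
    simp only [this]
    have i1 : IntegrableOn (fun _ : ℂ => 2 * (1 / π)) (ball 0 1) := hio continuousOn_const
    have i2 : IntegrableOn (fun z : ℂ => 2 * ‖z‖ ^ 2 / π) (ball 0 1) := hio hn2
    rw [integral_sub i1 i2, integral_const_mul, integral_one_div_pi, hm2]
    norm_num
  -- constants
  set s : ℝ := Real.sqrt (2 * B) with hs
  have hspos : 0 < s := Real.sqrt_pos.2 (by positivity)
  have hss : s ^ 2 = 2 * B := Real.sq_sqrt (by positivity)
  set κ : ℝ := 1 + 1 / s with hκ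
  set M : ℝ := 2 * (B + s) with hM
  set x : ℝ := xx B with hx
  have hxM : x = Real.exp (-M) := by
    rw [hx, xx, hM]
    congr 1
    ring
  have hxpos : 0 < x := by rw [hxM]; exact Real.exp_pos _
  have hx1 : x < 1 := by
    rw [hxM, Real.exp_lt_one_iff]
    have : 0 < M := by positivity
    linarith
  set H : ℂ → ℝ := fun z => (S * x) * (1 + M - s / 2) + (-(S * x * κ)) * DD P v z with hH
  have hHc : ContinuousOn H (closedBall 0 1) :=
    continuousOn_const.add (continuousOn_const.mul hDc)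
  have hem : Real.exp (Real.log S - M) = S * x := by
    rw [Real.exp_sub, Real.exp_log hSpos, hxM, Real.exp_neg]
    rfl
  have hHavg : ∀ r, 0 < r → r < 1 → Real.circleAverage H 0 r =
      Real.exp (Real.log S - M) * (1 + (Real.log S - (κ * Real.circleAverage (DD P v) 0 r + s / 2)) -
        (Real.log S - M)) := by
    intro r hr hr1
    have h1 : CircleIntegrable (DD P v) 0 r := (hDc.mono (hsr r hr1)).circleIntegrable hr.le
    have h2 : CircleIntegrable (fun z => (-(S * x * κ)) * DD P v z) 0 r := h1.const_mul _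
    rw [hH, Real.circleAverage_fun_add (circleIntegrable_const _ _ _) h2,
      Real.circleAverage_const]
    have h3 := Real.circleAverage_fun_smul (a := -(S * x * κ)) (f := DD P v) (c := 0) (R := r)
    simp only [smul_eq_mul] at h3
    rw [h3, hem]
    ring
  have hHint : ∀ {k : ℂ → ℝ}, ContinuousOn k (closedBall 0 1) →
      ∫ z in ball (0 : ℂ) 1, k z = 1 → ∫ z in ball (0 : ℂ) 1, k z * DD P v z ≤ 2 * B →
      S * x ≤ ∫ z in ball (0 : ℂ) 1, k z * H z := by
    intro k hk hk1 hkD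
    have e1 : ∀ z, k z * H z = (S * x) * (1 + M - s / 2) * k z +
        (-(S * x * κ)) * (k z * DD P v z) := by
      intro z
      simp only [hH]
      ring
    simp only [e1]
    have i1 : IntegrableOn (fun z : ℂ => (S * x) * (1 + M - s / 2) * k z) (ball 0 1) :=
      hio (continuousOn_const.mul hk)
    have i2 : IntegrableOn (fun z : ℂ => (-(S * x * κ)) * (k z * DD P v z)) (ball 0 1) :=
      hio (continuousOn_const.mul (hk.mul hDc))
    rw [integral_add i1 i2, integral_const_mul, integral_const_mul, hk1]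
    have hκpos : 0 < κ := by positivity
    have h1 : (S * x * κ) * ∫ z in ball (0 : ℂ) 1, k z * DD P v z ≤ (S * x * κ) * (2 * B) :=
      mul_le_mul_of_nonneg_left hkD (by positivity)
    have h2 : κ * (2 * B) = 2 * B + s := by
      rw [hκ, ← hss]
      field_simp
    have h3 : (S * x * κ) * (2 * B) = (S * x) * (2 * B + s) := by
      rw [mul_assoc, h2]
    have h4 : 0 < S * x := by positivity
    rw [h3] at h1
    have h5 : (S * x) * (1 + M - s / 2) - (S * x) * (2 * B + s) = (S * x) * (1 + s / 2) := by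
      rw [hM]
      ring
    nlinarith
  -- (γ)
  have hγ : S * x ≤ ∫ z in ball (0 : ℂ) 1, 2 * ‖z‖ ^ 2 / π * qf (P z) (ev v z *ᵥ c) := by
    refine le_trans (hHint hn2 hm2 (by linarith)) ?_
    refine radial_mono_lt (k := fun t => 2 * t ^ 2 / π) hk2 hk2' one_pos le_rfl (hfc c) hHc ?_
    intro r hr hr1
    rw [hHavg r hr hr1]
    exact avg_frame_ge hr (hPc.mono (hsr r hr1)) (fun z hz => hP z (hsr r hr1 hz)) hq0 hc0 hBpos _
  -- (δ)
  have hδ' : S * x ≤ ∫ z in ball (0 : ℂ) 1, 2 * (1 - ‖z‖ ^ 2) / π * qf (P z) (u z) := by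
    refine le_trans (hHint hn1 hm1 (by linarith)) ?_
    have hFi : IntegrableOn (fun z : ℂ => 2 * (1 - ‖z‖ ^ 2) / π * qf (P z) (u z)) (ball 0 1) := by
      have := hint.const_mul 2
      refine this.congr (Eventually.of_forall fun z => ?_)
      simp only
      ring
    refine radial_mono (k := fun t => 2 * (1 - t ^ 2) / π) hk1 hk1'
      (qf_contOn (hPc.mono ball_subset_closedBall) hu.continuousOn)
      (fun z hz => qf_nonneg (hP z (ball_subset_closedBall hz)).posSemidef _) hFi hHc ?_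
    intro r hr hr1
    rw [hHavg r hr hr1]
    exact avg_u_ge hr (hPc.mono (hsr r hr1)) (fun z hz => hP z (hsr r hr1 hz)) hq0 hu hr1 hc0 hcu
      hBpos _
  -- conclusion
  have hcost : S * x / 2 ≤ ∫ z in ball (0 : ℂ) 1, (1 - ‖z‖ ^ 2) / π * qf (P z) (u z) := by
    have e1 : ∀ z : ℂ, 2 * (1 - ‖z‖ ^ 2) / π * qf (P z) (u z) =
        2 * ((1 - ‖z‖ ^ 2) / π * qf (P z) (u z)) := fun z => by ring
    simp only [e1] at hδ'
    rw [integral_const_mul] at hδ'
    linarith
  have ha2 : qf Q (u 0) + S * x / 2 ≤ S := by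
    have h1 := ha' c
    rw [hcu] at h1
    have e1 : ∀ z : ℂ, 2 * ‖z‖ ^ 2 / π * qf (P z) (ev v z *ᵥ c) =
        2 * (‖z‖ ^ 2 / π * qf (P z) (ev v z *ᵥ c)) := fun z => by ring
    simp only [e1] at hγ
    rw [integral_const_mul] at hγ
    linarith
  refine le_trans ?_ hcost
  have h2x : 0 < 2 - x := by linarith
  rw [mul_div_assoc', div_le_div_iff₀ h2x two_pos]
  nlinarith

/-- **The core of XRA**, statement of note 12858 (B) with `0 ≤ τ`. -/
theorem core {n : ℕ} (P : ℂ → Matrix (Fin n) (Fin n) ℂ)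
    (hPc : ContinuousOn P (closedBall 0 1)) (hP : ∀ z ∈ closedBall (0 : ℂ) 1, (P z).PosDef)
    (u : ℂ → K.Cm n) (hu : DifferentiableOn ℂ u (ball 0 1)) (Q : Matrix (Fin n) (Fin n) ℂ)
    (_hQ : Q.PosSemidef) (C τ : ℝ) (hC : 0 ≤ C) (hτ : 0 ≤ τ)
    (ha : ∀ p : Fin n → Polynomial ℂ, HY.hq Q (fun i => (p i).eval 0) +
      ∫ z in ball (0 : ℂ) 1, ‖z‖ ^ 2 / Real.pi * HY.hq (P z) (fun i => (p i).eval z) ≤
      Real.circleAverage (fun z => HY.hq (P z) (fun i => (p i).eval z)) 0 1)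
    (hb : ∀ p : Fin n → Polynomial ℂ,
      ∫ z in ball (0 : ℂ) 1, 1 / Real.pi * HY.hq (P z) (fun i => (p i).eval z) ≤
      Real.circleAverage (fun z => HY.hq (P z) (fun i => (p i).eval z)) 0 1 +
        C * HY.hq Q (fun i => (p i).eval 0))
    (hc : Real.circleAverage (fun z => Real.log (P z).det.re) 0 1 - τ ≤
      ∫ z in ball (0 : ℂ) 1, 1 / Real.pi * Real.log (P z).det.re)
    (hint : IntegrableOn (fun z => (1 - ‖z‖ ^ 2) / Real.pi * HY.hq (P z) (u z)) (ball 0 1))
    (hpos : 0 < HY.hq Q (u 0)) :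
    HY.hq Q (u 0) * (xx (n * C + τ) / (2 - xx (n * C + τ))) ≤
      ∫ z in ball (0 : ℂ) 1, (1 - ‖z‖ ^ 2) / Real.pi * HY.hq (P z) (u z) := by
  have ht : Continuous (fun M : Matrix (Fin n) (Fin n) ℂ => Mᵀ) := continuous_id.matrix_transpose
  have hq : ∀ (M : Matrix (Fin n) (Fin n) ℂ) (w : K.Cm n), HY.hq M w = qf Mᵀ w :=
    fun M w => HY.hq_eq M w
  simp only [hq] at ha hb hint hpos ⊢
  have key : ∀ δ : ℝ, 0 < δ → qf Qᵀ (u 0) * (xx (n * C + τ + δ) / (2 - xx (n * C + τ + δ))) ≤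
      ∫ z in ball (0 : ℂ) 1, (1 - ‖z‖ ^ 2) / Real.pi * qf ((P z)ᵀ) (u z) := by
    intro δ hδ
    have h := core_star (P := fun z => (P z)ᵀ) (ht.comp_continuousOn hPc)
      (fun z hz => (hP z hz).transpose) hu (Q := Qᵀ) hC hτ ha hb
      (by simpa only [det_transpose] using hc) hint hpos hδ
    simpa only [Fintype.card_fin] using h
  have hxc : Continuous xx := by
    unfold xx
    fun_prop
  have hxlt : ∀ B : ℝ, 0 ≤ B → xx B ≤ 1 := by
    intro B hB
    rw [xx, Real.exp_le_one_iff]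
    have := Real.sqrt_nonneg (2 * B)
    linarith
  have hB0 : 0 ≤ (n : ℝ) * C + τ := by positivity
  have hcont : ContinuousAt (fun δ : ℝ => qf Qᵀ (u 0) *
      (xx (n * C + τ + δ) / (2 - xx (n * C + τ + δ)))) 0 := by
    have h1 : Continuous fun δ : ℝ => xx (n * C + τ + δ) := hxc.comp (by fun_prop)
    refine ContinuousAt.mul continuousAt_const (ContinuousAt.div h1.continuousAt
      (continuous_const.sub h1).continuousAt ?_)
    have := hxlt (n * C + τ + 0) (by linarith)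
    intro h
    linarith
  have hlim : Tendsto (fun δ : ℝ => qf Qᵀ (u 0) *
      (xx (n * C + τ + δ) / (2 - xx (n * C + τ + δ)))) (𝓝[>] 0)
      (𝓝 (qf Qᵀ (u 0) * (xx (n * C + τ) / (2 - xx (n * C + τ))))) := by
    have h1 := hcont.tendsto
    simp only [add_zero] at h1
    exact h1.mono_left nhdsWithin_le_nhds
  refine le_of_tendsto hlim ?_
  filter_upwards [self_mem_nhdsWithin] with δ hδ
  exact key δ hδ

end Vale.Agent.P272.Sz
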