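import Vale.Agent.P272.Sz.Frame
set_option linter.unusedSectionVars false

/-!
# P272, second copy of the core of XRA: matrix and scalar inequalities
-/

namespace Vale.Agent.P272.Sz

open Matrix Complex Metric MeasureTheory
open scoped ComplexOrder Real

variable {ι : Type*} [Fintype ι] [DecidableEq ι]

/-- The real quadratic form of a matrix. -/
def qf (M : Matrix ι ι ℂ) (x : ι → ℂ) : ℝ := (star x ⬝ᵥ M *ᵥ x).re

theorem qf_nonneg {M : Matrix ι ι ℂ} (hM : M.PosSemidef) (x : ι → ℂ) : 0 ≤ qf M x :=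
  (Complex.le_def.1 (hM.dotProduct_mulVec_nonneg (x := x))).1

theorem qf_pos {M : Matrix ι ι ℂ} (hM : M.PosDef) {x : ι → ℂ} (hx : x ≠ 0) : 0 < qf M x := by
  have h1 := (Complex.lt_def.1 (hM.dotProduct_mulVec_pos hx)).1
  simpa [qf] using h1

theorem qf_smul (M : Matrix ι ι ℂ) (a : ℂ) (x : ι → ℂ) : qf M (a • x) = ‖a‖ ^ 2 * qf M x := by
  unfold qf
  rw [mulVec_smul, dotProduct_smul, star_smul, smul_dotProduct, smul_eq_mul, smul_eq_mul,
    ← mul_assoc]
  have : a * star a = ((‖a‖ ^ 2 : ℝ) : ℂ) := by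
    rw [← starRingEnd_apply, Complex.mul_conj']
    push_cast
    rfl
  rw [this, Complex.re_ofReal_mul]

theorem star_dot_self (c : ι → ℂ) : star c ⬝ᵥ c = ((∑ a, ‖c a‖ ^ 2 : ℝ) : ℂ) := by
  simp only [dotProduct, Pi.star_apply]
  push_cast
  refine Finset.sum_congr rfl fun a _ => ?_
  rw [mul_comm]
  exact Complex.mul_conj' (c a)

/-- For a unit vector `c` and a positive definite matrix `A`:
`a - 1 - log a ≤ tr A - n - log det A` with `a = c^* A c`. -/
theorem entropy_unit {A : Matrix ι ι ℂ} (hA : A.PosDef) {c : ι → ℂ} (hc : ∑ a, ‖c a‖ ^ 2 = 1) :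
    qf A c - 1 - Real.log (qf A c) ≤ A.trace.re - Fintype.card ι - Real.log A.det.re := by
  have hcc : star c ⬝ᵥ c = 1 := by rw [star_dot_self, hc]; norm_num
  have hc0 : c ≠ 0 := by
    rintro rfl
    simp at hcc
  set a : ℝ := qf A c with ha
  have hapos : 0 < a := qf_pos hA hc0
  set t : ℝ := (Real.sqrt a)⁻¹ with ht
  have htpos : 0 < t := inv_pos.2 (Real.sqrt_pos.2 hapos)
  have htsq : t ^ 2 = a⁻¹ := by rw [ht, inv_pow, Real.sq_sqrt hapos.le]
  set V : Matrix ι ι ℂ := vecMulVec c (star c) with hV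
  have hVV : V * V = V := by
    rw [hV, vecMulVec_mul_vecMulVec, hcc, one_smul]
  have hVH : Vᴴ = V := by
    ext i j
    simp [hV, vecMulVec_apply, mul_comm]
  set S : Matrix ι ι ℂ := 1 + ((t - 1 : ℝ) : ℂ) • V with hS
  have hSH : Sᴴ = S := by
    rw [hS, conjTranspose_add, conjTranspose_one, conjTranspose_smul, hVH]
    congr 2
    exact Complex.conj_ofReal _
  have hSdet : S.det = (t : ℂ) := by
    have h1 : S = 1 + replicateCol Unit (((t - 1 : ℝ) : ℂ) • c) * replicateRow Unit (star c) := by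
      ext i j
      simp [hS, hV, vecMulVec_apply, Matrix.mul_apply]
    rw [h1, det_one_add_replicateCol_mul_replicateRow, dotProduct_smul, hcc]
    push_cast
    simp
  have hSS : S * Sᴴ = 1 + ((t ^ 2 - 1 : ℝ) : ℂ) • V := by
    rw [hSH, hS, Matrix.add_mul, Matrix.mul_add, Matrix.mul_add, Matrix.mul_one, Matrix.one_mul,
      Matrix.mul_one, Matrix.mul_smul, Matrix.smul_mul, hVV, smul_smul]
    push_cast
    module
  have hSu : IsUnit S := by
    rw [Matrix.isUnit_iff_isUnit_det, hSdet, isUnit_iff_ne_zero]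
    exact_mod_cast htpos.ne'
  have hC : (Sᴴ * A * S).PosDef := hA.conjTranspose_mul_mul_same (Matrix.mulVec_injective_of_isUnit hSu)
  have h1 := Vale.P272.H696.log_det_le_trace hC
  have htr : (Sᴴ * A * S).trace.re = A.trace.re + (t ^ 2 - 1) * a := by
    rw [Matrix.mul_assoc, Matrix.trace_mul_comm, Matrix.mul_assoc, hSS, Matrix.mul_add,
      Matrix.mul_one, Matrix.trace_add, Matrix.mul_smul, Matrix.trace_smul, Complex.add_re, hV,
      mul_vecMulVec, trace_vecMulVec, smul_eq_mul, Complex.re_ofReal_mul, dotProduct_comm]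
    rfl
  have hdet : (Sᴴ * A * S).det.re = t ^ 2 * A.det.re := by
    rw [det_mul, det_mul, det_conjTranspose, hSdet, (det_eq_ofReal hA).1]
    have : star (t : ℂ) = (t : ℂ) := Complex.conj_ofReal _
    rw [this, ← Complex.ofReal_mul, ← Complex.ofReal_mul, Complex.ofReal_re, Complex.ofReal_re]
    ring
  rw [htr, hdet, Real.log_mul (by positivity) (det_eq_ofReal hA).2.ne', htsq, Real.log_inv] at h1
  have h2 : (a⁻¹ - 1) * a = 1 - a := by
    field_simp
  rw [h2] at h1
  linarith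

/-- The scalar inequality behind the `√`: if `a - 1 - log a ≤ E` then `-log a ≤ E + √(2E)`. -/
theorem neg_log_le {a E : ℝ} (ha : 0 < a) (h : a - 1 - Real.log a ≤ E) :
    -Real.log a ≤ E + Real.sqrt (2 * E) := by
  have hE : 0 ≤ E := by
    have := Real.log_le_sub_one_of_pos ha
    linarith
  set s := Real.sqrt (2 * E) with hs
  have hs0 : 0 ≤ s := Real.sqrt_nonneg _
  have hss : s ^ 2 = 2 * E := Real.sq_sqrt (by positivity)
  set y := -Real.log a with hy
  by_contra hcon
  push Not at hcon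
  have hy0 : 0 < y := by linarith
  have hay : a = Real.exp (-y) := by rw [hy, neg_neg, Real.exp_log ha]
  -- e^{-y} ≥ (2 - y)/(2 + y)
  have hpade : (2 - y) ≤ (2 + y) * Real.exp (-y) := by
    -- g(y) = (2+y) e^{-y} - 2 + y, g(0)=0, g' = 1 - (1+y)e^{-y} ≥ 0
    have hmono : MonotoneOn (fun x : ℝ => (2 + x) * Real.exp (-x) - 2 + x) (Set.Ici 0) := by
      refine monotoneOn_of_deriv_nonneg (convex_Ici 0) (by fun_prop) (by fun_prop) ?_
      intro x hx
      have hd : HasDerivAt (fun x : ℝ => (2 + x) * Real.exp (-x) - 2 + x)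
          (1 * Real.exp (-x) + (2 + x) * (Real.exp (-x) * (-1)) + 1) x := by
        have h1 : HasDerivAt (fun x : ℝ => 2 + x) 1 x := (hasDerivAt_id x).const_add 2
        have h2 : HasDerivAt (fun x : ℝ => Real.exp (-x)) (Real.exp (-x) * (-1)) x :=
          (hasDerivAt_neg x).exp
        exact ((h1.mul h2).sub_const 2).add (hasDerivAt_id x)
      rw [hd.deriv]
      have h3 : (1 + x) * Real.exp (-x) ≤ 1 := by
        have h4 : 1 + x ≤ Real.exp x := by linarith [Real.add_one_le_exp x]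
        calc (1 + x) * Real.exp (-x) ≤ Real.exp x * Real.exp (-x) :=
              mul_le_mul_of_nonneg_right h4 (Real.exp_nonneg _)
          _ = 1 := by rw [← Real.exp_add]; simp
      nlinarith
    have h5 := hmono (Set.mem_Ici.2 le_rfl) (Set.mem_Ici.2 hy0.le) hy0.le
    simp only [neg_zero, Real.exp_zero] at h5
    linarith
  have h1 : Real.exp (-y) - 1 + y ≤ E := by
    rw [← hay]
    linarith
  have h2 : y ^ 2 ≤ E * (2 + y) := by
    have : (2 + y) * (Real.exp (-y) - 1 + y) ≤ (2 + y) * E :=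
      mul_le_mul_of_nonneg_left h1 (by linarith)
    nlinarith
  -- contradiction
  have h3 : 0 ≤ E * s := mul_nonneg hE hs0
  nlinarith

/-- Linearised form. -/
theorem neg_log_le_lin {a E B : ℝ} (ha : 0 < a) (h : a - 1 - Real.log a ≤ E) (hB : 0 < B) :
    -Real.log a ≤ (1 + 1 / Real.sqrt (2 * B)) * E + Real.sqrt (2 * B) / 2 := by
  have hE : 0 ≤ E := by
    have := Real.log_le_sub_one_of_pos ha
    linarith
  refine le_trans (neg_log_le ha h) ?_
  set s := Real.sqrt (2 * E) with hs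
  set b := Real.sqrt (2 * B) with hb
  have hs0 : 0 ≤ s := Real.sqrt_nonneg _
  have hss : s ^ 2 = 2 * E := Real.sq_sqrt (by positivity)
  have hb0 : 0 < b := Real.sqrt_pos.2 (by positivity)
  have h1 : s ≤ E / b + b / 2 := by
    rw [div_add_div _ _ hb0.ne' two_ne_zero, le_div_iff₀ (by positivity)]
    nlinarith [sq_nonneg (s - b)]
  have h2 : (1 + 1 / b) * E = E + E / b := by ring
  rw [h2]
  linarith

/-- tangent line of the exponential, in logarithmic form -/
theorem tangent {x : ℝ} (hx : 0 < x) (m : ℝ) : Real.exp m * (1 + Real.log x - m) ≤ x := by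
  have h1 := Real.add_one_le_exp (Real.log x - m)
  calc Real.exp m * (1 + Real.log x - m) = Real.exp m * (Real.log x - m + 1) := by ring
    _ ≤ Real.exp m * Real.exp (Real.log x - m) := mul_le_mul_of_nonneg_left h1 (Real.exp_nonneg _)
    _ = x := by rw [← Real.exp_add, add_sub_cancel, Real.exp_log hx]

/-- Pointwise lower bound of a positive definite form. -/
theorem qf_lower {A : Matrix ι ι ℂ} (hA : A.PosDef) {c : ι → ℂ} (hc : c ≠ 0) {B : ℝ} (hB : 0 < B) :
    Real.log (∑ a, ‖c a‖ ^ 2) - ((1 + 1 / Real.sqrt (2 * B)) *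
      (A.trace.re - Fintype.card ι - Real.log A.det.re) + Real.sqrt (2 * B) / 2) ≤
      Real.log (qf A c) := by
  set N : ℝ := ∑ a, ‖c a‖ ^ 2 with hN
  have hNpos : 0 < N := by
    obtain ⟨i, hi⟩ := Function.ne_iff.1 hc
    refine Finset.sum_pos' (fun a _ => by positivity) ⟨i, Finset.mem_univ i, ?_⟩
    exact pow_pos (norm_pos_iff.2 hi) 2
  set t : ℝ := (Real.sqrt N)⁻¹ with ht
  have htpos : 0 < t := inv_pos.2 (Real.sqrt_pos.2 hNpos)
  have htsq : t ^ 2 = N⁻¹ := by rw [ht, inv_pow, Real.sq_sqrt hNpos.le]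
  have h1 : ∑ a, ‖((t : ℂ) • c) a‖ ^ 2 = 1 := by
    have : ∀ a, ‖((t : ℂ) • c) a‖ ^ 2 = t ^ 2 * ‖c a‖ ^ 2 := by
      intro a
      rw [Pi.smul_apply, smul_eq_mul, norm_mul, Complex.norm_real, Real.norm_eq_abs, mul_pow, sq_abs]
    simp only [this]
    rw [← Finset.mul_sum, ← hN, htsq, inv_mul_cancel₀ hNpos.ne']
  have h2 := entropy_unit hA h1
  have h3 : qf A ((t : ℂ) • c) = t ^ 2 * qf A c := by
    rw [qf_smul, Complex.norm_real, Real.norm_eq_abs, sq_abs]
  have h4 : 0 < qf A ((t : ℂ) • c) := by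
    rw [h3]
    exact mul_pos (by positivity) (qf_pos hA hc)
  have h5 := neg_log_le_lin h4 h2 hB
  rw [h3, Real.log_mul (by positivity) (qf_pos hA hc).ne', htsq, Real.log_inv] at h5
  linarith

end Vale.Agent.P272.Sz
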