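import Vale.Agent.P272.Sz.CoreA
import Vale.Agent.P272.GJ.Green
set_option linter.unusedSectionVars false

/-!
# P272, second copy of the core of XRA: comparison of radial integrals by circle averages
-/

namespace Vale.Agent.P272.Sz

open Matrix Complex Metric MeasureTheory Set Filter Topology
open scoped ComplexOrder Real

/-- Integration over a disc in polar coordinates, with circle averages. -/
theorem integral_ball_circle {F : ℂ → ℝ} {ρ : ℝ}
    (hF : ContinuousOn F (closedBall 0 ρ)) :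
    IntegrableOn (fun r => 2 * π * r * Real.circleAverage F 0 r) (Ioo 0 ρ) ∧
    ∫ z in ball (0 : ℂ) ρ, F z = ∫ r in Ioo 0 ρ, 2 * π * r * Real.circleAverage F 0 r := by
  have hc : ContinuousOn (fun p : ℝ × ℝ => p.1 • F (GJ.pt p.1 p.2)) (Icc 0 ρ ×ˢ Icc (-π) π) :=
    continuousOn_fst.smul (GJ.contOn_pt_prod hF)
  have hsub : Ioo (0:ℝ) ρ ×ˢ Ioo (-π) π ⊆ Icc 0 ρ ×ˢ Icc (-π) π :=
    prod_mono Ioo_subset_Icc_self Ioo_subset_Icc_self
  have hint : IntegrableOn (fun p : ℝ × ℝ => p.1 • F (GJ.pt p.1 p.2)) (Ioo 0 ρ ×ˢ Ioo (-π) π)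
      (volume.prod volume) :=
    (hc.integrableOn_compact (isCompact_Icc.prod isCompact_Icc)).mono_set hsub
  have hin : ∀ r : ℝ, ∫ θ in Ioo (-π) π, r • F (GJ.pt r θ) =
      2 * π * r * Real.circleAverage F 0 r := by
    intro r
    rw [GJ.circleAverage_eq_pi, ← integral_Ioc_eq_integral_Ioo,
      ← intervalIntegral.integral_of_le (by linarith [Real.pi_pos] : -π ≤ π),
      intervalIntegral.integral_smul, smul_eq_mul, smul_eq_mul]
    have : (2 * π) ≠ 0 := by positivity
    field_simp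
  constructor
  · have h1 : Integrable (fun p : ℝ × ℝ => p.1 • F (GJ.pt p.1 p.2))
        ((volume.restrict (Ioo 0 ρ)).prod (volume.restrict (Ioo (-π) π))) := by
      rw [Measure.prod_restrict]
      exact hint
    have h2 := h1.integral_prod_left
    refine h2.congr (Eventually.of_forall fun r => ?_)
    exact hin r
  · rw [GJ.setIntegral_ball_polar]
    have h1 := setIntegral_prod (μ := (volume : Measure ℝ)) (ν := (volume : Measure ℝ)) _ hint
    rw [← Measure.volume_eq_prod] at h1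
    rw [h1]
    exact setIntegral_congr_fun measurableSet_Ioo fun r _ => hin r

theorem circleAverage_radial (F : ℂ → ℝ) (k : ℝ → ℝ) {r : ℝ} (hr : 0 ≤ r) :
    Real.circleAverage (fun z => k ‖z‖ * F z) 0 r = k r * Real.circleAverage F 0 r := by
  have h1 : Real.circleAverage (fun z => k ‖z‖ * F z) 0 r =
      Real.circleAverage (fun z => k r * F z) 0 r := by
    refine Real.circleAverage_congr_sphere fun z hz => ?_
    have : ‖z‖ = r := by
      rw [mem_sphere_zero_iff_norm, abs_of_nonneg hr] at hz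
      exact hz
    simp only [this]
  rw [h1]
  have := Real.circleAverage_fun_smul (a := k r) (f := F) (c := 0) (R := r)
  simpa [smul_eq_mul] using this

/-- Radial comparison on a smaller disc. -/
theorem radial_mono_lt {F H : ℂ → ℝ} {k : ℝ → ℝ} (hk : Continuous k)
    (hk0 : ∀ r, 0 ≤ r → r ≤ 1 → 0 ≤ k r) {ρ : ℝ} (hρ : 0 < ρ) (hρ1 : ρ ≤ 1)
    (hF : ContinuousOn F (closedBall 0 ρ)) (hH : ContinuousOn H (closedBall 0 ρ))
    (h : ∀ r, 0 < r → r < 1 → Real.circleAverage H 0 r ≤ Real.circleAverage F 0 r) :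
    ∫ z in ball (0 : ℂ) ρ, k ‖z‖ * H z ≤ ∫ z in ball (0 : ℂ) ρ, k ‖z‖ * F z := by
  have hkn : ContinuousOn (fun z : ℂ => k ‖z‖) (closedBall 0 ρ) :=
    (hk.comp continuous_norm).continuousOn
  obtain ⟨i1, e1⟩ := integral_ball_circle (F := fun z => k ‖z‖ * H z) (hkn.mul hH)
  obtain ⟨i2, e2⟩ := integral_ball_circle (F := fun z => k ‖z‖ * F z) (hkn.mul hF)
  rw [e1, e2]
  refine setIntegral_mono_on i1 i2 measurableSet_Ioo fun r hr => ?_
  rw [circleAverage_radial H k hr.1.le, circleAverage_radial F k hr.1.le]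
  refine mul_le_mul_of_nonneg_left ?_ (mul_nonneg (by positivity) hr.1.le)
  exact mul_le_mul_of_nonneg_left (h r hr.1 (lt_of_lt_of_le hr.2 hρ1))
    (hk0 r hr.1.le (hr.2.le.trans hρ1))

/-- Radial comparison on the unit disc. -/
theorem radial_mono {F H : ℂ → ℝ} {k : ℝ → ℝ} (hk : Continuous k)
    (hk0 : ∀ r, 0 ≤ r → r ≤ 1 → 0 ≤ k r)
    (hF : ContinuousOn F (ball 0 1)) (hF0 : ∀ z ∈ ball (0 : ℂ) 1, 0 ≤ F z)
    (hFi : IntegrableOn (fun z => k ‖z‖ * F z) (ball 0 1))
    (hH : ContinuousOn H (closedBall 0 1))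
    (h : ∀ r, 0 < r → r < 1 → Real.circleAverage H 0 r ≤ Real.circleAverage F 0 r) :
    ∫ z in ball (0 : ℂ) 1, k ‖z‖ * H z ≤ ∫ z in ball (0 : ℂ) 1, k ‖z‖ * F z := by
  set ρ : ℕ → ℝ := fun m => 1 - 1 / (m + 2) with hρdef
  have hρ : ∀ m, 0 < ρ m ∧ ρ m < 1 := by
    intro m
    have h1 : (0 : ℝ) < m + 2 := by positivity
    have h2 : 1 / ((m : ℝ) + 2) < 1 := by
      rw [div_lt_one h1]
      linarith [(Nat.cast_nonneg m : (0 : ℝ) ≤ m)]
    have h3 : 0 < 1 / ((m : ℝ) + 2) := by positivity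
    exact ⟨by simp only [hρdef]; linarith, by simp only [hρdef]; linarith⟩
  have hmono : Monotone fun m => ball (0 : ℂ) (ρ m) := by
    intro a b hab
    refine ball_subset_ball ?_
    simp only [hρdef]
    have : (1 : ℝ) / (b + 2) ≤ 1 / (a + 2) := by
      refine one_div_le_one_div_of_le (by positivity) ?_
      have : (a : ℝ) ≤ b := by exact_mod_cast hab
      linarith
    linarith
  have hU : ⋃ m, ball (0 : ℂ) (ρ m) = ball 0 1 := by
    ext z
    simp only [mem_iUnion, mem_ball_zero_iff]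
    constructor
    · rintro ⟨m, hm⟩
      exact hm.trans (hρ m).2
    · intro hz
      obtain ⟨m, hm⟩ := exists_nat_one_div_lt (sub_pos.2 hz)
      refine ⟨m, ?_⟩
      have : (1 : ℝ) / (m + 2) ≤ 1 / (m + 1) := by
        refine one_div_le_one_div_of_le (by positivity) (by linarith)
      simp only [hρdef]
      linarith
  have hkn : ContinuousOn (fun z : ℂ => k ‖z‖) (closedBall 0 1) :=
    (hk.comp continuous_norm).continuousOn
  have hHi : IntegrableOn (fun z => k ‖z‖ * H z) (ball (0 : ℂ) 1) :=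
    ((hkn.mul hH).integrableOn_compact (isCompact_closedBall 0 1)).mono_set ball_subset_closedBall
  have hlim : Tendsto (fun m => ∫ z in ball (0 : ℂ) (ρ m), k ‖z‖ * H z) atTop
      (𝓝 (∫ z in ball (0 : ℂ) 1, k ‖z‖ * H z)) := by
    have := tendsto_setIntegral_of_monotone (μ := (volume : Measure ℂ))
      (f := fun z => k ‖z‖ * H z) (s := fun m => ball (0 : ℂ) (ρ m))
      (fun m => measurableSet_ball) hmono (by rw [hU]; exact hHi)
    rwa [hU] at this
  refine le_of_tendsto hlim (Eventually.of_forall fun m => ?_)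
  have hsub : closedBall (0 : ℂ) (ρ m) ⊆ ball 0 1 := closedBall_subset_ball (hρ m).2
  refine le_trans (radial_mono_lt hk hk0 (hρ m).1 (hρ m).2.le (hF.mono hsub)
    (hH.mono (hsub.trans ball_subset_closedBall)) h) ?_
  refine setIntegral_mono_set hFi ?_ ?_
  · filter_upwards [ae_restrict_mem measurableSet_ball] with z hz
    exact mul_nonneg (hk0 _ (norm_nonneg _) (mem_ball_zero_iff.1 hz).le) (hF0 z hz)
  · exact (ball_subset_ball (hρ m).2.le).eventuallyLE

end Vale.Agent.P272.Sz
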