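import Vale.Agent.P272.Sz.CoreB
set_option linter.unusedSectionVars false

/-!
# P272, second copy of the core of XRA: the inequalities on circles
-/

namespace Vale.Agent.P272.Sz

open Matrix Complex Metric MeasureTheory Set Filter Topology
open scoped ComplexOrder Real

variable {ι : Type*} [Fintype ι] [DecidableEq ι]

theorem ae_ne_zero {g : ℂ → ℂ} (hg : DifferentiableOn ℂ g (ball 0 1)) (hg0 : g 0 ≠ 0)
    {r : ℝ} (hr : 0 < r) (hr1 : r < 1) : ∀ᵐ θ : ℝ, g (circleMap 0 r θ) ≠ 0 := by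
  have han : AnalyticOnNhd ℂ g (ball 0 1) := fun z hz => hg.analyticAt (isOpen_ball.mem_nhds hz)
  have h1 : g ⁻¹' {0}ᶜ ∈ codiscreteWithin (ball (0 : ℂ) 1) :=
    han.preimage_zero_mem_codiscreteWithin hg0 (mem_ball_self one_pos)
      ((convex_ball (0 : ℂ) 1).isConnected ⟨0, mem_ball_self one_pos⟩)
  have hsub : sphere (0 : ℂ) |r| ⊆ ball 0 1 := by
    rw [abs_of_pos hr]
    exact sphere_subset_closedBall.trans (closedBall_subset_ball hr1)
  have h2 : g ⁻¹' {0}ᶜ ∈ codiscreteWithin (sphere (0 : ℂ) |r|) := codiscreteWithin_mono hsub h1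
  have h3 : circleMap 0 r ⁻¹' (g ⁻¹' {0}ᶜ) ∈ codiscrete ℝ :=
    circleMap_preimage_codiscrete hr.ne' h2
  have h4 := ae_restrict_le_codiscreteWithin (μ := (volume : Measure ℝ)) MeasurableSet.univ h3
  rw [Measure.restrict_univ] at h4
  filter_upwards [h4] with θ hθ
  simpa using hθ

/-- Lower bound of a circle average from a lower bound of the logarithm. -/
theorem avg_ge_of_log {F ℓ : ℂ → ℝ} {r : ℝ} (hF : CircleIntegrable F 0 r)
    (hℓ : CircleIntegrable ℓ 0 r)
    (h : ∀ᵐ θ : ℝ, 0 < F (circleMap 0 r θ) ∧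
      ℓ (circleMap 0 r θ) ≤ Real.log (F (circleMap 0 r θ)))
    {L : ℝ} (hL : L ≤ Real.circleAverage ℓ 0 r) (m : ℝ) :
    Real.exp m * (1 + L - m) ≤ Real.circleAverage F 0 r := by
  have h1 : Real.circleAverage (fun z => Real.exp m * (1 + ℓ z - m)) 0 r ≤
      Real.circleAverage F 0 r := by
    simp only [Real.circleAverage, smul_eq_mul]
    refine mul_le_mul_of_nonneg_left ?_ (by positivity)
    refine intervalIntegral.integral_mono_ae (by positivity) ?_ hF ?_
    · have h2 : CircleIntegrable (fun _ : ℂ => (1 : ℝ) - m) 0 r :=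
        circleIntegrable_const _ _ _
      have h3 : CircleIntegrable (fun z => Real.exp m * ((1 - m) + ℓ z)) 0 r :=
        (h2.add hℓ).const_mul _
      refine (IntervalIntegrable.congr ?_ h3)
      intro θ _
      simp only
      ring
    · filter_upwards [h] with θ hθ
      refine le_trans ?_ (tangent hθ.1 m)
      refine mul_le_mul_of_nonneg_left ?_ (Real.exp_nonneg _)
      linarith [hθ.2]
  refine le_trans ?_ h1
  have h4 : Real.circleAverage (fun z => Real.exp m * (1 + ℓ z - m)) 0 r =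
      Real.exp m * (1 - m + Real.circleAverage ℓ 0 r) := by
    have e1 : (fun z => Real.exp m * (1 + ℓ z - m)) = fun z => Real.exp m • ((1 - m) + ℓ z) := by
      ext z
      simp only [smul_eq_mul]
      ring
    rw [e1, Real.circleAverage_fun_smul, smul_eq_mul,
      Real.circleAverage_fun_add (circleIntegrable_const _ _ _) hℓ, Real.circleAverage_const]
  rw [h4]
  refine mul_le_mul_of_nonneg_left ?_ (Real.exp_nonneg _)
  linarith

/-- The continuous majorant of the entropy. -/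
noncomputable def DD (P : ℂ → Matrix ι ι ℂ) (v : Matrix ι ι (Polynomial ℂ)) (z : ℂ) : ℝ :=
  (∑ k, qf (P z) (ev v z *ᵥ Pi.single k 1)) - Fintype.card ι - Real.log (P z).det.re -
    2 * Real.log ‖v.det.eval 0‖

theorem trace_mz (P : ℂ → Matrix ι ι ℂ) (v : Matrix ι ι (Polynomial ℂ)) (z : ℂ) :
    (mz v P z).trace.re = ∑ k, qf (P z) (ev v z *ᵥ Pi.single k 1) := by
  have htr : ∀ M : Matrix ι ι ℂ, M.trace.re =
      ∑ k, (star (Pi.single k 1 : ι → ℂ) ⬝ᵥ M *ᵥ (Pi.single k 1)).re := by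
    intro M
    simp [trace, diag, Pi.star_single]
  rw [htr]
  refine Finset.sum_congr rfl fun k _ => ?_
  rw [mz_form]
  rfl

theorem qf_mz (P : ℂ → Matrix ι ι ℂ) (v : Matrix ι ι (Polynomial ℂ)) (z : ℂ) (c : ι → ℂ) :
    qf (mz v P z) c = qf (P z) (ev v z *ᵥ c) := by
  unfold qf
  rw [mz_form]

theorem entropy_eq {P : ℂ → Matrix ι ι ℂ} {v : Matrix ι ι (Polynomial ℂ)} {z : ℂ}
    (hP : (P z).PosDef) (hz : v.det.eval z ≠ 0) :
    (mz v P z).trace.re - Fintype.card ι - Real.log (mz v P z).det.re =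
      DD P v z + 2 * Real.log ‖v.det.eval 0‖ - 2 * Real.log ‖v.det.eval z‖ := by
  rw [logdet_mz hP hz, trace_mz, DD]
  ring

theorem qf_contOn {s : Set ℂ} {P : ℂ → Matrix ι ι ℂ} {x : ℂ → ι → ℂ} (hP : ContinuousOn P s)
    (hx : ContinuousOn x s) : ContinuousOn (fun z => qf (P z) (x z)) s := by
  unfold qf
  refine Complex.continuous_re.comp_continuousOn ?_
  have h1 : ContinuousOn (fun z => P z *ᵥ x z) s := by
    refine continuousOn_pi.2 fun a => ?_
    simp only [mulVec, dotProduct]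
    exact continuousOn_finsetSum _ fun b _ => (entry_contOn hP a b).mul
      ((continuous_apply b).comp_continuousOn hx)
  simp only [dotProduct]
  refine continuousOn_finsetSum _ fun a _ => ContinuousOn.mul ?_ ?_
  · exact (((continuous_apply a).comp_continuousOn hx)).star
  · exact (continuous_apply a).comp_continuousOn h1

theorem ev_mulVec_cont (v : Matrix ι ι (Polynomial ℂ)) (c : ι → ℂ) :
    Continuous fun z => ev v z *ᵥ c := by
  refine continuous_pi fun a => ?_
  simp only [mulVec, dotProduct]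
  refine continuous_finsetSum _ fun b _ => ?_
  exact ((v a b).continuous).mul continuous_const

theorem DD_cont {s : Set ℂ} {P : ℂ → Matrix ι ι ℂ} (hP : ContinuousOn P s)
    (hpd : ∀ z ∈ s, (P z).PosDef) (v : Matrix ι ι (Polynomial ℂ)) : ContinuousOn (DD P v) s := by
  unfold DD
  refine ((ContinuousOn.sub ?_ continuousOn_const).sub (logdet_contOn hP hpd)).sub
    continuousOn_const
  exact continuousOn_finsetSum _ fun k _ => qf_contOn hP (ev_mulVec_cont v _).continuousOn

section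
variable {P : ℂ → Matrix ι ι ℂ} {v : Matrix ι ι (Polynomial ℂ)} {r : ℝ}
  (hr : 0 < r) (hP : ContinuousOn P (sphere 0 r))
  (hpd : ∀ z ∈ sphere (0 : ℂ) r, (P z).PosDef) (hq0 : v.det.eval 0 ≠ 0)

include hr hP hpd hq0

theorem avg_entropy :
    CircleIntegrable (fun z => DD P v z + 2 * Real.log ‖v.det.eval 0‖ -
      2 * Real.log ‖v.det.eval z‖) 0 r ∧
    Real.circleAverage (fun z => DD P v z + 2 * Real.log ‖v.det.eval 0‖ -
      2 * Real.log ‖v.det.eval z‖) 0 r =
      Real.circleAverage (DD P v) 0 r - 2 * (lm v.det r - Real.log ‖v.det.eval 0‖) := by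
  have h1 : CircleIntegrable (DD P v) 0 r := (DD_cont hP hpd v).circleIntegrable hr.le
  have h2 : CircleIntegrable (fun _ : ℂ => 2 * Real.log ‖v.det.eval 0‖) 0 r :=
    circleIntegrable_const _ _ _
  have h3 : CircleIntegrable (fun z => 2 * Real.log ‖v.det.eval z‖) 0 r :=
    (lm_integrable v.det r).const_mul 2
  have h4 : CircleIntegrable (fun z => DD P v z + 2 * Real.log ‖v.det.eval 0‖) 0 r := h1.add h2
  refine ⟨h4.sub h3, ?_⟩
  rw [Real.circleAverage_fun_sub h4 h3, Real.circleAverage_fun_add h1 h2,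
    Real.circleAverage_const]
  have h5 := Real.circleAverage_fun_smul (a := (2 : ℝ)) (f := fun z : ℂ => Real.log ‖v.det.eval z‖)
      (c := 0) (R := r)
  simp only [smul_eq_mul] at h5
  rw [h5, lm]
  ring

theorem avg_DD_nonneg : 0 ≤ Real.circleAverage (DD P v) 0 r := by
  have hq : v.det ≠ 0 := by
    intro h
    rw [h] at hq0
    simp at hq0
  have hmem : ∀ θ : ℝ, circleMap 0 r θ ∈ sphere (0 : ℂ) r := fun θ =>
    circleMap_mem_sphere _ hr.le θ
  obtain ⟨hi, he⟩ := avg_entropy hr hP hpd hq0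
  have h1 : 0 ≤ Real.circleAverage (fun z => DD P v z + 2 * Real.log ‖v.det.eval 0‖ -
      2 * Real.log ‖v.det.eval z‖) 0 r := by
    simp only [Real.circleAverage, smul_eq_mul]
    refine mul_nonneg (by positivity) ?_
    refine intervalIntegral.integral_nonneg_of_ae (by positivity) ?_
    filter_upwards [exists_theta hq hr] with θ hθ
    have h2 := Vale.P272.H696.log_det_le_trace (mz_posDef (A := v) (hpd _ (hmem θ)) hθ)
    have h3 := entropy_eq (hpd _ (hmem θ)) hθ
    simp only [Pi.zero_apply]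
    rw [← h3]
    linarith
  rw [he] at h1
  have h4 := log_le_lm hq0 r
  linarith

/-- The inequality (1) on a circle. -/
theorem avg_frame_ge {c : ι → ℂ} (hc : c ≠ 0) {B : ℝ} (hB : 0 < B) (m : ℝ) :
    Real.exp m * (1 + (Real.log (∑ a, ‖c a‖ ^ 2) - ((1 + 1 / Real.sqrt (2 * B)) *
      Real.circleAverage (DD P v) 0 r + Real.sqrt (2 * B) / 2)) - m) ≤
      Real.circleAverage (fun z => qf (P z) (ev v z *ᵥ c)) 0 r := by
  have hq : v.det ≠ 0 := by
    intro h
    rw [h] at hq0
    simp at hq0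
  have hmem : ∀ θ : ℝ, circleMap 0 r θ ∈ sphere (0 : ℂ) r := fun θ =>
    circleMap_mem_sphere _ hr.le θ
  obtain ⟨hi, he⟩ := avg_entropy hr hP hpd hq0
  set κ : ℝ := 1 + 1 / Real.sqrt (2 * B) with hκ
  set N : ℝ := Real.log (∑ a, ‖c a‖ ^ 2) with hN
  have hκ1 : 1 ≤ κ := by
    have : 0 ≤ 1 / Real.sqrt (2 * B) := by positivity
    linarith
  have hF : CircleIntegrable (fun z => qf (P z) (ev v z *ᵥ c)) 0 r :=
    (qf_contOn hP (ev_mulVec_cont v c).continuousOn).circleIntegrable hr.le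
  have hℓ : CircleIntegrable (fun z => (N - Real.sqrt (2 * B) / 2) + (-κ) *
      (DD P v z + 2 * Real.log ‖v.det.eval 0‖ - 2 * Real.log ‖v.det.eval z‖)) 0 r :=
    (circleIntegrable_const _ _ _).add (hi.const_mul (-κ))
  refine avg_ge_of_log hF hℓ ?_ ?_ m
  · filter_upwards [exists_theta hq hr] with θ hθ
    have hpos := mz_posDef (A := v) (hpd _ (hmem θ)) hθ
    rw [← qf_mz]
    refine ⟨qf_pos hpos hc, ?_⟩
    have h1 := qf_lower hpos hc hB
    rw [entropy_eq (hpd _ (hmem θ)) hθ] at h1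
    rw [← hκ, ← hN] at h1
    linarith
  · have hik : CircleIntegrable (fun z => (-κ) * (DD P v z + 2 * Real.log ‖v.det.eval 0‖ -
      2 * Real.log ‖v.det.eval z‖)) 0 r := hi.const_mul (-κ)
    rw [Real.circleAverage_fun_add (circleIntegrable_const _ _ _) hik, Real.circleAverage_const]
    have h5 := Real.circleAverage_fun_smul (a := -κ) (f := fun z : ℂ => DD P v z +
      2 * Real.log ‖v.det.eval 0‖ - 2 * Real.log ‖v.det.eval z‖) (c := 0) (R := r)
    simp only [smul_eq_mul] at h5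
    rw [h5, he]
    have h6 := log_le_lm hq0 r
    have h7 : 0 ≤ κ * (2 * (lm v.det r - Real.log ‖v.det.eval 0‖)) := by
      refine mul_nonneg (by linarith) (by linarith)
    linarith

/-- The inequality (2) on a circle. -/
theorem avg_u_ge {u : ℂ → ι → ℂ} (hu : DifferentiableOn ℂ u (ball 0 1)) (hr1 : r < 1)
    {c : ι → ℂ} (hc : c ≠ 0) (hcu : ev v 0 *ᵥ c = u 0) {B : ℝ} (hB : 0 < B) (m : ℝ) :
    Real.exp m * (1 + (Real.log (∑ a, ‖c a‖ ^ 2) - ((1 + 1 / Real.sqrt (2 * B)) *
      Real.circleAverage (DD P v) 0 r + Real.sqrt (2 * B) / 2)) - m) ≤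
      Real.circleAverage (fun z => qf (P z) (u z)) 0 r := by
  have hq : v.det ≠ 0 := by
    intro h
    rw [h] at hq0
    simp at hq0
  have hmem : ∀ θ : ℝ, circleMap 0 r θ ∈ sphere (0 : ℂ) r := fun θ =>
    circleMap_mem_sphere _ hr.le θ
  have hsub : sphere (0 : ℂ) r ⊆ ball 0 1 :=
    sphere_subset_closedBall.trans (closedBall_subset_ball hr1)
  obtain ⟨hi, he⟩ := avg_entropy hr hP hpd hq0
  set κ : ℝ := 1 + 1 / Real.sqrt (2 * B) with hκ
  have hNpos : 0 < ∑ a, ‖c a‖ ^ 2 := by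
    obtain ⟨i, hi⟩ := Function.ne_iff.1 hc
    refine Finset.sum_pos' (fun a _ => by positivity) ⟨i, Finset.mem_univ i, ?_⟩
    exact pow_pos (norm_pos_iff.2 hi) 2
  set N : ℝ := Real.log (∑ a, ‖c a‖ ^ 2) with hN
  have hκ1 : 1 ≤ κ := by
    have : 0 ≤ 1 / Real.sqrt (2 * B) := by positivity
    linarith
  -- the scalar function
  set g : ℂ → ℂ := fun z => star c ⬝ᵥ ((ev v z).adjugate *ᵥ u z) with hg
  have hadj : ∀ z, (ev v z).adjugate = ev v.adjugate z := by
    intro z
    have := (Polynomial.evalRingHom z).map_adjugate v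
    exact this.symm
  have hgd : DifferentiableOn ℂ g (ball 0 1) := by
    simp only [hg, hadj, dotProduct, mulVec]
    refine DifferentiableOn.fun_sum fun a _ => DifferentiableOn.const_mul ?_ _
    refine DifferentiableOn.fun_sum fun b _ => DifferentiableOn.mul ?_ ?_
    · exact ((v.adjugate a b).differentiable).differentiableOn
    · exact (differentiableOn_pi.1 hu) b
  have hg0 : g 0 = v.det.eval 0 * ((∑ a, ‖c a‖ ^ 2 : ℝ) : ℂ) := by
    simp only [hg]
    rw [← hcu, mulVec_mulVec, adjugate_mul, smul_mulVec, one_mulVec, dotProduct_smul, det_ev,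
      star_dot_self, smul_eq_mul]
  have hg0' : g 0 ≠ 0 := by
    rw [hg0]
    exact mul_ne_zero hq0 (by exact_mod_cast hNpos.ne')
  obtain ⟨hgi, hgJ⟩ := log_le_circleAverage hgd hg0' hr hr1
  have hlogg0 : Real.log ‖g 0‖ = Real.log ‖v.det.eval 0‖ + N := by
    rw [hg0, norm_mul, Complex.norm_real, Real.norm_eq_abs, abs_of_pos hNpos,
      Real.log_mul (norm_ne_zero_iff.2 hq0) hNpos.ne']
  have hF : CircleIntegrable (fun z => qf (P z) (u z)) 0 r :=
    (qf_contOn hP (hu.continuousOn.mono hsub)).circleIntegrable hr.le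
  have i1 : CircleIntegrable (fun z => 2 * Real.log ‖g z‖) 0 r := hgi.const_mul 2
  have i2 : CircleIntegrable (fun z => (-2) * Real.log ‖v.det.eval z‖) 0 r :=
    (lm_integrable v.det r).const_mul (-2)
  have i3 : CircleIntegrable (fun _ : ℂ => -N - Real.sqrt (2 * B) / 2) 0 r :=
    circleIntegrable_const _ _ _
  have i4 : CircleIntegrable (fun z => (-κ) * (DD P v z + 2 * Real.log ‖v.det.eval 0‖ -
      2 * Real.log ‖v.det.eval z‖)) 0 r := hi.const_mul (-κ)
  have i12 : CircleIntegrable (fun z => 2 * Real.log ‖g z‖ + (-2) * Real.log ‖v.det.eval z‖) 0 r :=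
    i1.add i2
  have i123 : CircleIntegrable (fun z => 2 * Real.log ‖g z‖ + (-2) * Real.log ‖v.det.eval z‖ +
      (-N - Real.sqrt (2 * B) / 2)) 0 r := i12.add i3
  have hℓ : CircleIntegrable (fun z => 2 * Real.log ‖g z‖ + (-2) * Real.log ‖v.det.eval z‖ +
      (-N - Real.sqrt (2 * B) / 2) + (-κ) * (DD P v z + 2 * Real.log ‖v.det.eval 0‖ -
      2 * Real.log ‖v.det.eval z‖)) 0 r := i123.add i4
  refine avg_ge_of_log hF hℓ ?_ ?_ m
  · filter_upwards [exists_theta hq hr, ae_ne_zero hgd hg0' hr hr1] with θ hθ hgθ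
    set z := circleMap 0 r θ with hz
    have hpos := mz_posDef (A := v) (hpd _ (hmem θ)) hθ
    have hunit : IsUnit (ev v z).det := by
      rw [det_ev, isUnit_iff_ne_zero]
      exact hθ
    set w : ι → ℂ := (ev v z)⁻¹ *ᵥ u z with hw
    have hvw : ev v z *ᵥ w = u z := by
      rw [hw, mulVec_mulVec, mul_nonsing_inv _ hunit, one_mulVec]
    have hgz : g z = v.det.eval z * (star c ⬝ᵥ w) := by
      simp only [hg]
      rw [← hvw, mulVec_mulVec, adjugate_mul, smul_mulVec, one_mulVec, dotProduct_smul, det_ev,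
        smul_eq_mul]
    have hcw : star c ⬝ᵥ w ≠ 0 := by
      intro h
      rw [hgz, h, mul_zero] at hgθ
      exact hgθ rfl
    have hw0 : w ≠ 0 := by
      intro h
      rw [h, dotProduct_zero] at hcw
      exact hcw rfl
    have hWpos : 0 < ∑ a, ‖w a‖ ^ 2 := by
      obtain ⟨i, hi⟩ := Function.ne_iff.1 hw0
      refine Finset.sum_pos' (fun a _ => by positivity) ⟨i, Finset.mem_univ i, ?_⟩
      exact pow_pos (norm_pos_iff.2 hi) 2
    have hCS : ‖star c ⬝ᵥ w‖ ^ 2 ≤ (∑ a, ‖c a‖ ^ 2) * ∑ a, ‖w a‖ ^ 2 := by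
      have h1 : ‖star c ⬝ᵥ w‖ ≤ ∑ a, ‖c a‖ * ‖w a‖ := by
        simp only [dotProduct, Pi.star_apply]
        refine (norm_sum_le _ _).trans (le_of_eq ?_)
        refine Finset.sum_congr rfl fun a _ => ?_
        rw [norm_mul, norm_star]
      exact (pow_le_pow_left₀ (norm_nonneg _) h1 2).trans (Finset.sum_mul_sq_le_sq_mul_sq _ _ _)
    have hlogCS : 2 * Real.log ‖star c ⬝ᵥ w‖ ≤ N + Real.log (∑ a, ‖w a‖ ^ 2) := by
      have h1 := Real.log_le_log (pow_pos (norm_pos_iff.2 hcw) 2) hCS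
      rw [Real.log_mul hNpos.ne' hWpos.ne', Real.log_pow] at h1
      push_cast at h1
      exact h1
    have hlogg : Real.log ‖g z‖ = Real.log ‖v.det.eval z‖ + Real.log ‖star c ⬝ᵥ w‖ := by
      rw [hgz, norm_mul, Real.log_mul (norm_ne_zero_iff.2 hθ) (norm_ne_zero_iff.2 hcw)]
    rw [← hvw, ← qf_mz]
    refine ⟨qf_pos hpos hw0, ?_⟩
    have h1 := qf_lower hpos hw0 hB
    rw [entropy_eq (hpd _ (hmem θ)) hθ] at h1
    rw [← hκ] at h1
    linarith
  · rw [Real.circleAverage_fun_add i123 i4, Real.circleAverage_fun_add i12 i3,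
      Real.circleAverage_fun_add i1 i2, Real.circleAverage_const]
    have h5 := Real.circleAverage_fun_smul (a := -κ) (f := fun z : ℂ => DD P v z +
      2 * Real.log ‖v.det.eval 0‖ - 2 * Real.log ‖v.det.eval z‖) (c := 0) (R := r)
    have h6 := Real.circleAverage_fun_smul (a := (2 : ℝ)) (f := fun z : ℂ => Real.log ‖g z‖)
      (c := 0) (R := r)
    have h7 := Real.circleAverage_fun_smul (a := (-2 : ℝ))
      (f := fun z : ℂ => Real.log ‖v.det.eval z‖) (c := 0) (R := r)
    simp only [smul_eq_mul] at h5 h6 h7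
    rw [h5, h6, h7, he]
    have h8 := log_le_lm hq0 r
    have h9 : 0 ≤ (κ - 1) * (2 * (lm v.det r - Real.log ‖v.det.eval 0‖)) :=
      mul_nonneg (by linarith) (by linarith)
    have h10 : Real.circleAverage (fun z : ℂ => Real.log ‖v.det.eval z‖) 0 r = lm v.det r := rfl
    rw [h10]
    linarith

end

end Vale.Agent.P272.Sz
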