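import Mathlib

/-!
# P272, block Sz: determinants of positive matrices (monotonicity, Schur complements)
-/

namespace Vale.Agent.P272.Sz

open Matrix
open scoped ComplexOrder

variable {α β : Type*} [Fintype α] [DecidableEq α] [Fintype β] [DecidableEq β]

/-- A Hermitian matrix `≥ 1` has determinant `≥ 1`. -/
theorem one_le_det {Y : Matrix α α ℂ} (hY : (Y - 1).PosSemidef) : 1 ≤ Y.det := by
  have hH : Y.IsHermitian := by
    have := hY.isHermitian.add (isHermitian_one (n := α) (α := ℂ))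
    simpa using this
  rw [hH.det_eq_prod_eigenvalues]
  have key : ∀ i, 1 ≤ hH.eigenvalues i := by
    intro i
    have h1 := hY.dotProduct_mulVec_nonneg (x := (hH.eigenvectorBasis i : α → ℂ))
    have h2 : star (hH.eigenvectorBasis i : α → ℂ) ⬝ᵥ (hH.eigenvectorBasis i : α → ℂ) = 1 := by
      have := (hH.eigenvectorBasis).orthonormal.1 i
      have h3 := inner_self_eq_norm_sq_to_K (𝕜 := ℂ) (hH.eigenvectorBasis i)
      rw [this] at h3
      simp only [EuclideanSpace.inner_eq_star_dotProduct] at h3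
      rw [dotProduct_comm] at h3
      simpa using h3
    rw [Matrix.sub_mulVec, dotProduct_sub, hH.mulVec_eigenvectorBasis, one_mulVec, dotProduct_smul,
      h2] at h1
    have h4 := (Complex.le_def.1 h1).1
    simp at h4
    linarith
  have : (1 : ℝ) ≤ ∏ i, hH.eigenvalues i := by
    have := Finset.prod_le_prod (s := (Finset.univ : Finset α)) (f := fun _ => (1 : ℝ))
      (g := fun i => hH.eigenvalues i) (fun i _ => zero_le_one) (fun i _ => key i)
    simpa using this
  have h5 : (((∏ i, hH.eigenvalues i : ℝ)) : ℂ) = ∏ i, (hH.eigenvalues i : ℂ) := by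
    push_cast; rfl
  rw [← Complex.ofReal_one]
  refine le_trans (Complex.real_le_real.2 this) ?_
  rw [h5]
  exact le_refl _

/-- The determinant is monotone on positive definite matrices. -/
theorem det_le_det {A B : Matrix α α ℂ} (hA : A.PosDef) (hAB : (B - A).PosSemidef) :
    A.det ≤ B.det := by
  obtain ⟨R, hR⟩ : ∃ R : Matrix α α ℂ, A = Rᴴ * R := by
    open scoped MatrixOrder in
    obtain ⟨R, hR⟩ := CStarAlgebra.nonneg_iff_eq_star_mul_self.mp hA.posSemidef.nonneg
    exact ⟨R, hR⟩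
  have hdet : A.det = star R.det * R.det := by
    rw [hR, det_mul, det_conjTranspose]
  have hne : A.det ≠ 0 := hA.det_pos.ne'
  have hRu : IsUnit R.det := by
    rw [isUnit_iff_ne_zero]
    intro h
    apply hne
    rw [hdet, h, mul_zero]
  set Y : Matrix α α ℂ := (R⁻¹)ᴴ * B * R⁻¹ with hYdef
  have hB : B = Rᴴ * Y * R := by
    rw [hYdef]
    have h1 : Rᴴ * (R⁻¹)ᴴ = 1 := by
      rw [← conjTranspose_mul, nonsing_inv_mul R hRu, conjTranspose_one]
    calc B = (Rᴴ * (R⁻¹)ᴴ) * B * (R⁻¹ * R) := by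
          rw [h1, nonsing_inv_mul R hRu, Matrix.one_mul, Matrix.mul_one]
      _ = _ := by simp only [Matrix.mul_assoc]
  have hY1 : (Y - 1).PosSemidef := by
    have h2 : Y - 1 = (R⁻¹)ᴴ * (B - A) * R⁻¹ := by
      rw [Matrix.mul_sub, Matrix.sub_mul, ← hYdef, hR]
      congr 1
      have h1 : (R⁻¹)ᴴ * Rᴴ = 1 := by
        rw [← conjTranspose_mul, mul_nonsing_inv R hRu, conjTranspose_one]
      calc (1 : Matrix α α ℂ) = ((R⁻¹)ᴴ * Rᴴ) * (R * R⁻¹) := by
            rw [h1, mul_nonsing_inv R hRu, Matrix.mul_one]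
        _ = _ := by simp only [Matrix.mul_assoc]
    rw [h2]
    exact hAB.conjTranspose_mul_mul_same _
  have h3 := one_le_det hY1
  have h4 : B.det = A.det * Y.det := by
    rw [hB, det_mul, det_mul, hdet, det_conjTranspose]
    ring
  rw [h4]
  have h5 : (0 : ℂ) ≤ A.det := hA.det_pos.le
  calc A.det = A.det * 1 := by ring
    _ ≤ A.det * Y.det := mul_le_mul_of_nonneg_left h3 h5

/-- Schur complement inequality. -/
theorem det_mul_det_le {A Q : Matrix α α ℂ} {B : Matrix α β ℂ} {D : Matrix β β ℂ}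
    (hQ : Q.PosDef) (hD : D.PosDef) (h : (fromBlocks (A - Q) B Bᴴ D).PosSemidef) :
    Q.det * D.det ≤ (fromBlocks A B Bᴴ D).det := by
  have : Invertible D := hD.isUnit.invertible
  have h1 := (PosDef.fromBlocks₂₂ (A - Q) B hD).1 h
  have h2 : (A - B * D⁻¹ * Bᴴ - Q).PosSemidef := by
    rw [sub_right_comm]
    exact h1
  have h3 := det_le_det hQ h2
  rw [det_fromBlocks₂₂, mul_comm]
  have h5 : (0 : ℂ) ≤ D.det := hD.det_pos.le
  rw [invOf_eq_nonsing_inv]
  exact mul_le_mul_of_nonneg_left h3 h5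

end Vale.Agent.P272.Sz
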