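import Vale.Agent.P272.Sz.StepC
set_option linter.unusedSectionVars false

/-!
# P272, block Sz: the matrix Szego inequality for continuous symbols
-/

namespace Vale.Agent.P272.Sz

open Matrix Complex Metric
open scoped ComplexOrder

variable {ι : Type*} [Fintype ι] [DecidableEq ι]

theorem fourier_mem (x : AddCircle (1 : ℝ)) : fourier 1 x ∈ sphere (0 : ℂ) 1 := by
  rw [fourier_one, mem_sphere_zero_iff_norm]
  exact Circle.norm_coe _

theorem trig_approx {f : ℂ → ℂ} (hf : ContinuousOn f (sphere 0 1)) {ε : ℝ} (hε : 0 < ε) :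
    ∃ c : ℤ →₀ ℂ, ∀ z ∈ sphere (0 : ℂ) 1, ‖f z - c.sum (fun r a => a * z ^ r)‖ < ε := by
  let F : C(AddCircle (1 : ℝ), ℂ) :=
    ⟨fun x => f (fourier 1 x), hf.comp_continuous (fourier 1).continuous fourier_mem⟩
  have h1 : F ∈ (Submodule.span ℂ (Set.range (@fourier (1 : ℝ)))).topologicalClosure := by
    rw [span_fourier_closure_eq_top]
    trivial
  obtain ⟨g, hg, hdist⟩ := Metric.mem_closure_iff.1 h1 ε hε
  obtain ⟨c, hc⟩ := (Finsupp.mem_span_range_iff_exists_finsupp).1 hg
  refine ⟨c, fun z hz => ?_⟩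
  have hz1 : ‖z‖ = 1 := by simpa using hz
  have hzx : fourier 1 ((z.arg / (2 * Real.pi) : ℝ) : AddCircle (1 : ℝ)) = z := by
    rw [fourier_coe_apply]
    have h2 := Complex.norm_mul_exp_arg_mul_I z
    rw [hz1] at h2
    conv_rhs => rw [← h2]
    have hpi : (Real.pi : ℂ) ≠ 0 := by exact_mod_cast Real.pi_ne_zero
    push_cast
    rw [one_mul]
    congr 1
    field_simp
  have hzn : ∀ n : ℤ, fourier n ((z.arg / (2 * Real.pi) : ℝ) : AddCircle (1 : ℝ)) = z ^ n := by
    intro n
    conv_rhs => rw [← hzx]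
    rw [fourier_coe_apply, fourier_coe_apply, ← Complex.exp_int_mul]
    congr 1
    push_cast
    ring
  have h3 := (ContinuousMap.dist_lt_iff hε).1 hdist ((z.arg / (2 * Real.pi) : ℝ) : AddCircle (1 : ℝ))
  rw [dist_eq_norm, ← hc] at h3
  have h4 : F ((z.arg / (2 * Real.pi) : ℝ) : AddCircle (1 : ℝ)) = f z := by
    change f (fourier 1 ((z.arg / (2 * Real.pi) : ℝ) : AddCircle (1 : ℝ))) = f z
    rw [hzx]
  rw [h4] at h3
  have h5 : (c.sum fun i a => a • (fourier i : C(AddCircle (1 : ℝ), ℂ)))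
      ((z.arg / (2 * Real.pi) : ℝ) : AddCircle (1 : ℝ)) = c.sum (fun r a => a * z ^ r) := by
    simp only [Finsupp.sum, ContinuousMap.coe_sum, Finset.sum_apply]
    refine Finset.sum_congr rfl fun r _ => ?_
    rw [ContinuousMap.coe_smul, Pi.smul_apply, smul_eq_mul, hzn]
  rw [h5] at h3
  exact h3

theorem Trig.add {P R : ℂ → Matrix ι ι ℂ} {m : ℕ} (hP : Trig P m) (hR : Trig R m) :
    Trig (fun z => P z + R z) m := by
  obtain ⟨A, hA⟩ := hP
  obtain ⟨B, hB⟩ := hR
  refine ⟨fun r => A r + B r, fun z hz => ?_⟩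
  simp only [hA z hz, hB z hz, smul_add, Finset.sum_add_distrib]

theorem Trig.smul {P : ℂ → Matrix ι ι ℂ} {m : ℕ} (hP : Trig P m) (c : ℂ) :
    Trig (fun z => c • P z) m := by
  obtain ⟨A, hA⟩ := hP
  refine ⟨fun r => c • A r, fun z hz => ?_⟩
  simp only [hA z hz, Finset.smul_sum]
  exact Finset.sum_congr rfl fun r _ => smul_comm _ _ _

theorem Trig.const (M : Matrix ι ι ℂ) (m : ℕ) : Trig (fun _ => M) m := by
  refine ⟨fun r => if r = 0 then M else 0, fun z hz => ?_⟩
  rw [Finset.sum_eq_single 0]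
  · simp
  · intro r _ hr
    simp [hr]
  · intro h
    exfalso
    apply h
    simp

theorem Trig.conjTranspose {P : ℂ → Matrix ι ι ℂ} {m : ℕ} (hP : Trig P m) :
    Trig (fun z => (P z)ᴴ) m := by
  obtain ⟨A, hA⟩ := hP
  refine ⟨fun r => (A (-r))ᴴ, fun z hz => ?_⟩
  simp only [hA z hz, conjTranspose_sum, conjTranspose_smul]
  refine Finset.sum_nbij' (fun r => -r) (fun r => -r) ?_ ?_ ?_ ?_ ?_
  · intro r hr
    simp only [Finset.mem_Icc] at hr ⊢
    omega
  · intro r hr
    simp only [Finset.mem_Icc] at hr ⊢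
    omega
  · intro r _; simp
  · intro r _; simp
  · intro r _
    rw [neg_neg, star_zpow₀, conj_eq_inv hz, _root_.inv_zpow']

theorem Trig.continuousOn {P : ℂ → Matrix ι ι ℂ} {m : ℕ} (hP : Trig P m) :
    ContinuousOn P (sphere 0 1) := by
  obtain ⟨A, hA⟩ := hP
  refine ContinuousOn.congr ?_ hA
  exact continuousOn_finsetSum _ fun r _ => (zpow_cont r).smul continuousOn_const

theorem small_psd {E : Matrix ι ι ℂ} (hE : E.IsHermitian) {η : ℝ} (h : ∀ a b, ‖E a b‖ ≤ η) :
    (((Fintype.card ι * η : ℝ) : ℂ) • (1 : Matrix ι ι ℂ) - E).PosSemidef := by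
  have hH : (((Fintype.card ι * η : ℝ) : ℂ) • (1 : Matrix ι ι ℂ) - E).IsHermitian := by
    refine IsHermitian.sub ?_ hE
    rw [IsHermitian, conjTranspose_smul, conjTranspose_one]
    congr 1
    exact Complex.conj_ofReal _
  refine posSemidef_of_re hH fun x => ?_
  rw [sub_mulVec, dotProduct_sub, Complex.sub_re, smul_mulVec, one_mulVec, dotProduct_smul,
    smul_eq_mul, sub_nonneg]
  have h1 : (star x ⬝ᵥ x) = ((∑ a, ‖x a‖ ^ 2 : ℝ) : ℂ) := by
    simp only [dotProduct, Pi.star_apply]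
    push_cast
    refine Finset.sum_congr rfl fun a _ => ?_
    rw [mul_comm]
    exact Complex.mul_conj' (x a)
  have h2 : (star x ⬝ᵥ E *ᵥ x).re ≤ η * (∑ a, ‖x a‖) ^ 2 := by
    refine le_trans (Complex.re_le_norm _) ?_
    simp only [dotProduct, mulVec, Pi.star_apply]
    refine le_trans (norm_sum_le _ _) ?_
    rw [sq, Finset.sum_mul, Finset.mul_sum]
    refine Finset.sum_le_sum fun a _ => ?_
    rw [norm_mul, norm_star]
    have h3 : ‖∑ b, E a b * x b‖ ≤ ∑ b, η * ‖x b‖ := by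
      refine le_trans (norm_sum_le _ _) (Finset.sum_le_sum fun b _ => ?_)
      rw [norm_mul]
      exact mul_le_mul_of_nonneg_right (h a b) (norm_nonneg _)
    calc ‖x a‖ * ‖∑ b, E a b * x b‖ ≤ ‖x a‖ * ∑ b, η * ‖x b‖ :=
          mul_le_mul_of_nonneg_left h3 (norm_nonneg _)
      _ = _ := by rw [← Finset.mul_sum]; ring
  rw [h1, ← Complex.ofReal_mul, Complex.ofReal_re]
  refine le_trans h2 ?_
  rcases isEmpty_or_nonempty ι with hι | hι
  · simp
  · have hη : 0 ≤ η := le_trans (norm_nonneg _) (h (Classical.arbitrary ι) (Classical.arbitrary ι))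
    have h3 := sq_sum_le_card_mul_sum_sq (s := (Finset.univ : Finset ι)) (f := fun a => ‖x a‖)
    simp only [Finset.card_univ] at h3
    calc η * (∑ a, ‖x a‖) ^ 2 ≤ η * (Fintype.card ι * ∑ a, ‖x a‖ ^ 2) :=
          mul_le_mul_of_nonneg_left h3 hη
      _ = _ := by ring

theorem exists_trig {P : ℂ → Matrix ι ι ℂ} (hP : ContinuousOn P (sphere 0 1))
    (hH : ∀ z ∈ sphere (0 : ℂ) 1, (P z).IsHermitian) {ε : ℝ} (hε : 0 < ε) :
    ∃ (m : ℕ) (R : ℂ → Matrix ι ι ℂ), Trig R m ∧ ∀ z ∈ sphere (0 : ℂ) 1,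
      (R z - P z).PosSemidef ∧ (P z + ((2 * ε : ℝ) : ℂ) • (1 : Matrix ι ι ℂ) - R z).PosSemidef := by
  set n := Fintype.card ι with hn
  have hη : 0 < ε / (n + 1) := by positivity
  have h1 := fun a b => trig_approx (entry_cont hP a b) hη
  choose c hc using h1
  let m : ℕ := Finset.univ.sup fun ab : ι × ι => (c ab.1 ab.2).support.sup Int.natAbs
  have hm : ∀ a b, ∀ r ∈ (c a b).support, r ∈ Finset.Icc (-(m : ℤ)) m := by
    intro a b r hr
    have h2 : r.natAbs ≤ (c a b).support.sup Int.natAbs := Finset.le_sup hr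
    have h3 : (c a b).support.sup Int.natAbs ≤ m :=
      Finset.le_sup (f := fun ab : ι × ι => (c ab.1 ab.2).support.sup Int.natAbs)
        (Finset.mem_univ (a, b))
    rw [Finset.mem_Icc]
    omega
  let T : ℂ → Matrix ι ι ℂ := fun z => ∑ r ∈ Finset.Icc (-(m : ℤ)) m, z ^ r • Matrix.of (fun a b => c a b r)
  have hT : Trig T m := ⟨_, fun z _ => rfl⟩
  have hTe : ∀ z ∈ sphere (0 : ℂ) 1, ∀ a b, ‖P z a b - T z a b‖ ≤ ε / (n + 1) := by
    intro z hz a b
    have h2 : T z a b = (c a b).sum (fun r x => x * z ^ r) := by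
      simp only [T, Matrix.sum_apply, Matrix.smul_apply, smul_eq_mul, Matrix.of_apply]
      rw [Finsupp.sum, ← Finset.sum_subset (hm a b)]
      · exact Finset.sum_congr rfl fun r _ => mul_comm _ _
      · intro r _ hr
        rw [Finsupp.notMem_support_iff.1 hr, mul_zero]
    rw [h2]
    exact (hc a b z hz).le
  let S : ℂ → Matrix ι ι ℂ := fun z => (1 / 2 : ℂ) • (T z + (T z)ᴴ)
  have hS : Trig S m := (hT.add hT.conjTranspose).smul _
  refine ⟨m, fun z => S z + (ε : ℂ) • 1, hS.add (Trig.const _ m), fun z hz => ?_⟩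
  have hEH : (P z - S z).IsHermitian := by
    refine (hH z hz).sub ?_
    simp only [S]
    rw [IsHermitian, conjTranspose_smul, conjTranspose_add, conjTranspose_conjTranspose, add_comm]
    congr 1
    simp
  have hEe : ∀ a b, ‖(P z - S z) a b‖ ≤ ε / (n + 1) := by
    intro a b
    have h3 : (P z - S z) a b = (1 / 2 : ℂ) * (P z a b - T z a b) +
        (1 / 2 : ℂ) * star (P z b a - T z b a) := by
      have h4 : star (P z b a) = P z a b := (hH z hz).apply a b
      rw [star_sub, h4]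
      simp only [S, Matrix.sub_apply, Matrix.smul_apply, Matrix.add_apply, conjTranspose_apply,
        smul_eq_mul]
      ring
    rw [h3]
    refine le_trans (norm_add_le _ _) ?_
    rw [norm_mul, norm_mul, norm_star]
    have h5 := hTe z hz a b
    have h6 := hTe z hz b a
    have h7 : ‖(1 / 2 : ℂ)‖ = 1 / 2 := by norm_num
    rw [h7]
    linarith
  have hbound : (n : ℝ) * (ε / (n + 1)) ≤ ε := by
    rw [← mul_div_assoc, div_le_iff₀ (by positivity)]
    nlinarith
  have hrest : (((ε - n * (ε / (n + 1)) : ℝ) : ℂ) • (1 : Matrix ι ι ℂ)).PosSemidef := by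
    refine Matrix.PosSemidef.one.smul ?_
    have : (0 : ℝ) ≤ ε - n * (ε / (n + 1)) := by linarith
    exact_mod_cast this
  constructor
  · have h8 := (small_psd hEH hEe).add hrest
    convert h8 using 1
    rw [← hn]
    push_cast
    module
  · have h9 := (small_psd hEH.neg (fun a b => by
      rw [Matrix.neg_apply, norm_neg]; exact hEe a b)).add hrest
    convert h9 using 1
    rw [← hn]
    push_cast
    module

end Vale.Agent.P272.Sz
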