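import Vale.Agent.P272.Sz.Two
set_option linter.unusedSectionVars false

/-!
# P272, block SZF: the Szego frame and Jensen's inequality for its determinant
-/

namespace Vale.Agent.P272.Sz

open Matrix Complex Metric MeasureTheory
open scoped ComplexOrder Real

variable {ι : Type*} [Fintype ι] [DecidableEq ι]

/-- Logarithmic circle mean of a polynomial. -/
noncomputable def lm (q : Polynomial ℂ) (r : ℝ) : ℝ :=
  Real.circleAverage (fun z => Real.log ‖q.eval z‖) 0 r

theorem lm_integrable (q : Polynomial ℂ) (r : ℝ) :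
    CircleIntegrable (fun z => Real.log ‖q.eval z‖) 0 r := by
  refine MeromorphicOn.circleIntegrable_log_norm fun z _ => ?_
  exact (q.differentiable.analyticAt z).meromorphicAt

/-- Jensen's inequality at the centre. -/
theorem log_le_lm {q : Polynomial ℂ} (hq0 : q.eval 0 ≠ 0) (r : ℝ) :
    Real.log ‖q.eval 0‖ ≤ lm q r := by
  set q' : Polynomial ℂ := q.comp (Polynomial.C (r : ℂ) * Polynomial.X) with hq'
  have h1 : lm q r = Real.circleAverage (fun z => Real.log ‖q'.eval z‖) 0 1 := by
    simp only [lm, Real.circleAverage]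
    congr 1
    refine intervalIntegral.integral_congr fun θ _ => ?_
    simp only [hq', Polynomial.eval_comp, Polynomial.eval_mul, Polynomial.eval_C, Polynomial.eval_X,
      circleMap]
    congr 4
    push_cast
    ring
  rw [h1]
  have h2 := q'.norm_coeff_le_choose_mul_mahlerMeasure 0
  have h3 : q'.coeff 0 = q.eval 0 := by
    rw [Polynomial.coeff_zero_eq_eval_zero, hq', Polynomial.eval_comp]
    simp
  rw [h3] at h2
  simp only [Nat.choose_zero_right, Nat.cast_one, one_mul] at h2
  have h4 := q'.logMahlerMeasure_eq_log_MahlerMeasure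
  rw [Polynomial.logMahlerMeasure_def] at h4
  rw [h4]
  exact Real.log_le_log (norm_pos_iff.2 hq0) h2

theorem lm_mul {p q : Polynomial ℂ} (hp : p ≠ 0) (hq : q ≠ 0) {r : ℝ} (hr : 0 < r) :
    lm (p * q) r = lm p r + lm q r := by
  have h := Real.circleAverage_fun_add (lm_integrable p r) (lm_integrable q r)
  rw [lm, lm, lm, ← h]
  simp only [Real.circleAverage]
  congr 1
  refine intervalIntegral.integral_congr_ae ?_
  filter_upwards [exists_theta hp hr, exists_theta hq hr] with θ h1 h2 _
  rw [Polynomial.eval_mul, norm_mul, Real.log_mul (norm_ne_zero_iff.2 h1) (norm_ne_zero_iff.2 h2)]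

theorem lm_C (c : ℂ) (r : ℝ) : lm (Polynomial.C c) r = Real.log ‖c‖ := by
  simp only [lm, Polynomial.eval_C]
  exact Real.circleAverage_const _ _ _

theorem lm_X_sub_C_mono (a : ℂ) {r s : ℝ} (hr : 0 < r) (hrs : r ≤ s) :
    lm (Polynomial.X - Polynomial.C a) r ≤ lm (Polynomial.X - Polynomial.C a) s := by
  have key : ∀ t : ℝ, 0 < t → lm (Polynomial.X - Polynomial.C a) t =
      Real.log t + Real.posLog (t⁻¹ * ‖a‖) := by
    intro t ht
    simp only [lm, Polynomial.eval_sub, Polynomial.eval_X, Polynomial.eval_C]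
    rw [circleAverage_log_norm_sub_const_eq_log_radius_add_posLog ht.ne']
    simp
  have hs : 0 < s := lt_of_lt_of_le hr hrs
  rw [key r hr, key s hs]
  rcases eq_or_ne a 0 with rfl | ha
  · simp only [norm_zero, mul_zero]
    have := Real.log_le_log hr hrs
    linarith
  · have ha' : 0 < ‖a‖ := norm_pos_iff.2 ha
    have h1 : ∀ t : ℝ, 0 < t → Real.log t + Real.posLog (t⁻¹ * ‖a‖) =
        max (Real.log t) (Real.log ‖a‖) := by
      intro t ht
      rw [Real.posLog, Real.log_mul (inv_ne_zero ht.ne') ha'.ne', Real.log_inv, ← max_add_add_left]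
      simp
    rw [h1 r hr, h1 s hs]
    exact max_le_max (Real.log_le_log hr hrs) le_rfl

theorem lm_mono {q : Polynomial ℂ} (hq : q ≠ 0) {r s : ℝ} (hr : 0 < r) (hrs : r ≤ s) :
    lm q r ≤ lm q s := by
  have hs : 0 < s := lt_of_lt_of_le hr hrs
  have hsplit := (IsAlgClosed.splits q)
  have hfac : q = Polynomial.C q.leadingCoeff * (q.roots.map (Polynomial.X - Polynomial.C ·)).prod :=
    hsplit.eq_prod_roots
  have key : ∀ m : Multiset ℂ, (m.map (Polynomial.X - Polynomial.C · : ℂ → Polynomial ℂ)).prod ≠ 0 ∧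
      lm (m.map (Polynomial.X - Polynomial.C ·)).prod r ≤
        lm (m.map (Polynomial.X - Polynomial.C ·)).prod s := by
    intro m
    induction m using Multiset.induction_on with
    | empty =>
      simp only [Multiset.map_zero, Multiset.prod_zero]
      refine ⟨one_ne_zero, ?_⟩
      rw [← Polynomial.C_1, lm_C, lm_C]
    | cons a m ih =>
      rw [Multiset.map_cons, Multiset.prod_cons]
      refine ⟨mul_ne_zero (Polynomial.X_sub_C_ne_zero a) ih.1, ?_⟩
      rw [lm_mul (Polynomial.X_sub_C_ne_zero a) ih.1 hr, lm_mul (Polynomial.X_sub_C_ne_zero a) ih.1 hs]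
      exact add_le_add (lm_X_sub_C_mono a hr hrs) ih.2
  have hC : (Polynomial.C q.leadingCoeff : Polynomial ℂ) ≠ 0 := by
    rw [Ne, Polynomial.C_eq_zero]
    exact Polynomial.leadingCoeff_ne_zero.2 hq
  rw [hfac, lm_mul hC (key _).1 hr, lm_mul hC (key _).1 hs, lm_C, lm_C]
  exact add_le_add le_rfl (key _).2

/-- The mean of `v^* P v` on the unit circle is `1`. -/
def NormedFrame (P : ℂ → Matrix ι ι ℂ) (v : Matrix ι ι (Polynomial ℂ)) : Prop :=
  ∀ c : ι → ℂ, Real.circleAverage
    (fun z => (star (ev v z *ᵥ c) ⬝ᵥ P z *ᵥ (ev v z *ᵥ c)).re) 0 1 = ∑ a, ‖c a‖ ^ 2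

/-- Concavity of `log det` on the circle for a normed frame. -/
theorem lm_le_of_normedFrame {P : ℂ → Matrix ι ι ℂ} (hP : ContinuousOn P (sphere 0 1))
    (hpd : ∀ z ∈ sphere (0 : ℂ) 1, (P z).PosDef) {v : Matrix ι ι (Polynomial ℂ)}
    (hv : NormedFrame P v) (hq : v.det ≠ 0) :
    2 * lm v.det 1 ≤ -Real.circleAverage (fun z => Real.log (P z).det.re) 0 1 := by
  have hM := mz_cont (A := v) hP
  have hmem : ∀ θ : ℝ, circleMap 0 1 θ ∈ sphere (0 : ℂ) 1 := fun θ =>
    circleMap_mem_sphere _ zero_le_one θ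
  have hfc : ∀ ξ : ι → ℂ, ContinuousOn (fun z => (star ξ ⬝ᵥ mz v P z *ᵥ ξ).re) (sphere 0 1) := by
    intro ξ
    refine Complex.continuous_re.comp_continuousOn ?_
    simp only [dotProduct, Pi.star_apply]
    refine continuousOn_finsetSum _ fun a _ => ContinuousOn.mul continuousOn_const ?_
    simp only [mulVec, dotProduct]
    exact continuousOn_finsetSum _ fun b _ => (entry_contOn hM a b).mul continuousOn_const
  have htr : ∀ M : Matrix ι ι ℂ, M.trace.re =
      ∑ k, (star (Pi.single k 1 : ι → ℂ) ⬝ᵥ M *ᵥ (Pi.single k 1)).re := by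
    intro M
    simp [trace, diag, Pi.star_single]
  have hR : Real.circleAverage (fun z => (mz v P z).trace.re - Fintype.card ι) 0 1 = 0 := by
    simp only [htr]
    rw [Real.circleAverage_fun_sub, Real.circleAverage_const, Real.circleAverage_fun_sum]
    · have : ∀ k : ι, Real.circleAverage (fun z => (star (Pi.single k 1 : ι → ℂ) ⬝ᵥ mz v P z *ᵥ
          (Pi.single k 1)).re) 0 1 = 1 := by
        intro k
        simp only [mz_form]
        rw [hv (Pi.single k 1), Finset.sum_eq_single k]
        · simp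
        · intro b _ hb
          simp [Pi.single_eq_of_ne hb]
        · intro h
          exact absurd (Finset.mem_univ _) h
      rw [Finset.sum_congr rfl fun k _ => this k]
      simp
    · exact fun k _ => (hfc _).circleIntegrable zero_le_one
    · exact (continuousOn_finsetSum _ fun k _ => hfc _).circleIntegrable zero_le_one
    · exact continuousOn_const.circleIntegrable zero_le_one
  have hlogP := logdet_contOn hP hpd
  have hlogq2 : CircleIntegrable (fun z => 2 * Real.log ‖v.det.eval z‖) 0 1 :=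
    (lm_integrable v.det 1).const_mul 2
  have hL : CircleIntegrable (fun z => 2 * Real.log ‖v.det.eval z‖ + Real.log (P z).det.re) 0 1 :=
    hlogq2.add (hlogP.circleIntegrable zero_le_one)
  have hineq : Real.circleAverage (fun z => 2 * Real.log ‖v.det.eval z‖ + Real.log (P z).det.re) 0 1 ≤
      0 := by
    rw [← hR]
    simp only [Real.circleAverage, smul_eq_mul]
    refine mul_le_mul_of_nonneg_left ?_ (by positivity)
    refine intervalIntegral.integral_mono_ae (by positivity) hL ?_ ?_
    · have h1 : ContinuousOn (fun z => (mz v P z).trace.re - (Fintype.card ι : ℝ)) (sphere 0 1) := by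
        simp only [htr]
        exact (continuousOn_finsetSum _ fun k _ => hfc _).sub continuousOn_const
      exact h1.circleIntegrable zero_le_one
    · filter_upwards [exists_theta hq one_pos] with θ hθ
      have h1 := Vale.P272.H696.log_det_le_trace (mz_posDef (A := v) (hpd _ (hmem θ)) hθ)
      rw [logdet_mz (hpd _ (hmem θ)) hθ] at h1
      exact h1
  have hsplit : Real.circleAverage (fun z => 2 * Real.log ‖v.det.eval z‖ + Real.log (P z).det.re) 0 1 =
      2 * lm v.det 1 + Real.circleAverage (fun z => Real.log (P z).det.re) 0 1 := by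
    rw [Real.circleAverage_fun_add hlogq2 (hlogP.circleIntegrable zero_le_one)]
    congr 1
    have := Real.circleAverage_fun_smul (a := (2 : ℝ)) (f := fun z : ℂ => Real.log ‖v.det.eval z‖)
      (c := 0) (R := 1)
    simpa [smul_eq_mul, lm] using this
  rw [hsplit] at hineq
  linarith

/-- **The Szego frame.** -/
theorem szego_frame {P : ℂ → Matrix ι ι ℂ} (hP : ContinuousOn P (sphere 0 1))
    (hpd : ∀ z ∈ sphere (0 : ℂ) 1, (P z).PosDef) {δ : ℝ} (hδ : 0 < δ) :
    ∃ v : Matrix ι ι (Polynomial ℂ), NormedFrame P v ∧ v.det.eval 0 ≠ 0 ∧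
      -Real.circleAverage (fun z => Real.log (P z).det.re) 0 1 - δ ≤
        2 * Real.log ‖v.det.eval 0‖ := by
  obtain ⟨A, G, hA, hG, hform, hlog⟩ := s12a_circ hP hpd hδ
  obtain ⟨S, hS⟩ : ∃ S : Matrix ι ι ℂ, G⁻¹ = S * Sᴴ := by
    obtain ⟨R, hR⟩ : ∃ R : Matrix ι ι ℂ, G⁻¹ = Rᴴ * R := by
      open scoped MatrixOrder in
      obtain ⟨R, hR⟩ := CStarAlgebra.nonneg_iff_eq_star_mul_self.mp hG.inv.posSemidef.nonneg
      exact ⟨R, hR⟩
    exact ⟨Rᴴ, by rw [hR, conjTranspose_conjTranspose]⟩
  have hGu : IsUnit G.det := (Matrix.isUnit_iff_isUnit_det G).1 hG.isUnit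
  have hSu : IsUnit S.det := by
    have h1 : (G⁻¹).det = S.det * (Sᴴ).det := by rw [hS, det_mul]
    have h2 : IsUnit (G⁻¹).det := (Matrix.isUnit_nonsing_inv_det_iff).2 hGu
    rw [h1] at h2
    exact isUnit_of_mul_isUnit_left h2
  have hSGS : Sᴴ * G * S = 1 := by
    have h1 : S * Sᴴ * G = 1 := by rw [← hS, nonsing_inv_mul G hGu]
    have h2 : Sᴴ * G = S⁻¹ := by
      have : S⁻¹ * (S * Sᴴ * G) = S⁻¹ := by rw [h1, Matrix.mul_one]
      rw [← this, Matrix.mul_assoc S, ← Matrix.mul_assoc S⁻¹ S, nonsing_inv_mul S hSu,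
        Matrix.one_mul]
    rw [h2, nonsing_inv_mul S hSu]
  set v : Matrix ι ι (Polynomial ℂ) := A * S.map Polynomial.C with hv
  have hev : ∀ z, ev v z = ev A z * S := by
    intro z
    ext i j
    simp [ev, hv, Matrix.mul_apply, Polynomial.eval_finsetSum]
  have hdet : ∀ z, v.det.eval z = A.det.eval z * S.det := by
    intro z
    rw [← det_ev, hev, det_mul, det_ev]
  have h0 : v.det.eval 0 = S.det := by
    rw [hdet, det_ne_zero_of_ev hA, one_mul]
  refine ⟨v, fun c => ?_, ?_, ?_⟩
  · have h1 : ∀ z, ev v z *ᵥ c = ev A z *ᵥ (S *ᵥ c) := by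
      intro z
      rw [hev, mulVec_mulVec]
    simp only [h1]
    rw [← hform (S *ᵥ c)]
    have h2 : star (S *ᵥ c) ⬝ᵥ G *ᵥ (S *ᵥ c) = star c ⬝ᵥ (Sᴴ * G * S) *ᵥ c := by
      rw [star_mulVec, ← mulVec_mulVec, ← mulVec_mulVec, ← dotProduct_mulVec]
    rw [h2, hSGS, one_mulVec]
    simp only [dotProduct, Pi.star_apply]
    rw [Complex.re_sum]
    refine Finset.sum_congr rfl fun a _ => ?_
    have : star (c a) * c a = ((‖c a‖ ^ 2 : ℝ) : ℂ) := by
      rw [← starRingEnd_apply, Complex.conj_mul']
      push_cast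
      rfl
    rw [this, Complex.ofReal_re]
  · rw [h0]
    exact hSu.ne_zero
  · rw [h0]
    have h3 : (G⁻¹).det = ((‖S.det‖ ^ 2 : ℝ) : ℂ) := by
      rw [hS, det_mul, det_conjTranspose, ← starRingEnd_apply, Complex.mul_conj']
      push_cast
      rfl
    have h4 : Real.log G.det.re = -(2 * Real.log ‖S.det‖) := by
      have h5 : (G⁻¹).det.re = (G.det.re)⁻¹ := by
        rw [Matrix.det_nonsing_inv, Ring.inverse_eq_inv', (det_eq_ofReal hG).1,
          ← Complex.ofReal_inv, Complex.ofReal_re, Complex.ofReal_re]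
      have h6 : (G.det.re)⁻¹ = ‖S.det‖ ^ 2 := by
        rw [← h5, h3, Complex.ofReal_re]
      have h7 : Real.log (G.det.re)⁻¹ = 2 * Real.log ‖S.det‖ := by
        rw [h6, Real.log_pow]
        push_cast
        ring
      rw [Real.log_inv] at h7
      linarith
    linarith

/-- Jensen's inequality for a holomorphic function on the unit disc. -/
theorem log_le_circleAverage {g : ℂ → ℂ} (hg : DifferentiableOn ℂ g (ball 0 1)) (hg0 : g 0 ≠ 0)
    {r : ℝ} (hr : 0 < r) (hr1 : r < 1) :
    CircleIntegrable (fun z => Real.log ‖g z‖) 0 r ∧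
      Real.log ‖g 0‖ ≤ Real.circleAverage (fun z => Real.log ‖g z‖) 0 r := by
  have han : AnalyticOnNhd ℂ g (closedBall 0 |r|) := by
    intro z hz
    refine hg.analyticAt (isOpen_ball.mem_nhds ?_)
    rw [abs_of_pos hr] at hz
    exact closedBall_subset_ball hr1 hz
  have hmer : MeromorphicOn g (closedBall 0 |r|) := han.meromorphicOn
  refine ⟨(hmer.mono_set sphere_subset_closedBall).circleIntegrable_log_norm, ?_⟩
  have h := MeromorphicOn.circleAverage_log_norm hr.ne' hmer
  have h0 : (0 : ℂ) ∈ closedBall (0 : ℂ) |r| := by simp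
  have htc : meromorphicTrailingCoeffAt g 0 = g 0 :=
    (han 0 h0).meromorphicTrailingCoeffAt_of_ne_zero hg0
  have hd0 : MeromorphicOn.divisor g (closedBall 0 |r|) 0 = 0 := by
    rw [MeromorphicOn.divisor_apply hmer h0]
    have : meromorphicOrderAt g 0 = 0 := by
      rw [(han 0 h0).meromorphicOrderAt_eq, (han 0 h0).analyticOrderAt_eq_zero.2 hg0]
      rfl
    rw [this]
    rfl
  have hnn := MeromorphicOn.AnalyticOnNhd.divisor_nonneg han
  rw [hd0, htc] at h
  have hsum : 0 ≤ ∑ᶠ u, (MeromorphicOn.divisor g (closedBall 0 |r|) u : ℝ) *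
      Real.log (r * ‖(0 : ℂ) - u‖⁻¹) := by
    refine finsum_nonneg fun u => ?_
    by_cases hu : u ∈ closedBall (0 : ℂ) |r|
    · rcases eq_or_ne u 0 with rfl | hu0
      · rw [hd0]
        simp
      · refine mul_nonneg ?_ ?_
        · exact_mod_cast hnn u
        · refine Real.log_nonneg ?_
          rw [zero_sub, norm_neg, ← div_eq_mul_inv, one_le_div (norm_pos_iff.2 hu0)]
          rw [mem_closedBall_zero_iff, abs_of_pos hr] at hu
          exact hu
    · have : MeromorphicOn.divisor g (closedBall 0 |r|) u = 0 := by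
        exact Function.locallyFinsuppWithin.apply_eq_zero_of_notMem _ hu
      rw [this]
      simp
  simp only [Int.cast_zero, zero_mul, add_zero] at h
  rw [h]
  linarith

end Vale.Agent.P272.Sz
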