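import Vale.Agent.P272.Sz.Frame
import Vale.Agent.P272.H696.S12
set_option linter.unusedSectionVars false

/-!
# P272, block SZF: the Szego frame in the `hq` form of `HY` (split of note 12858)
-/

namespace Vale.Agent.P272.HY

open Matrix Complex Metric MeasureTheory
open scoped ComplexOrder Real
open Vale.Agent.P272.K

/-- **The Szego frame** of a positive definite weight on the unit circle. -/
theorem szego_frame {n : ℕ} {P : ℂ → Matrix (Fin n) (Fin n) ℂ}
    (hP : ContinuousOn P (sphere 0 1)) (hpd : ∀ z ∈ sphere (0 : ℂ) 1, (P z).PosDef)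
    {d : ℝ} (hd : 0 < d) :
    ∃ v : Matrix (Fin n) (Fin n) (Polynomial ℂ),
      (∀ c : Cm n, Real.circleAverage
        (fun z => hq (P z) (fun i => ∑ j, (v i j).eval z * c j)) 0 1 = ∑ i, ‖c i‖ ^ 2) ∧
      v.det.eval 0 ≠ 0 ∧
      -Real.circleAverage (fun z => Real.log (P z).det.re) 0 1 - d ≤
        2 * Real.log ‖v.det.eval 0‖ ∧
      ∀ r : ℝ, 0 < r → r ≤ 1 →
        CircleIntegrable (fun z => Real.log ‖v.det.eval z‖) 0 r ∧
        Real.log ‖v.det.eval 0‖ ≤ Real.circleAverage (fun z => Real.log ‖v.det.eval z‖) 0 r ∧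
        2 * Real.circleAverage (fun z => Real.log ‖v.det.eval z‖) 0 r ≤
          -Real.circleAverage (fun z => Real.log (P z).det.re) 0 1 := by
  have ht : Continuous (fun M : Matrix (Fin n) (Fin n) ℂ => Mᵀ) := continuous_id.matrix_transpose
  have hP' : ContinuousOn (fun z => (P z)ᵀ) (sphere 0 1) := ht.comp_continuousOn hP
  have hpd' : ∀ z ∈ sphere (0 : ℂ) 1, ((P z)ᵀ).PosDef := fun z hz => (hpd z hz).transpose
  obtain ⟨v, hv, h0, h1⟩ := Sz.szego_frame hP' hpd' hd
  have hq0 : v.det ≠ 0 := by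
    intro h
    rw [h] at h0
    simp at h0
  have h2 := Sz.lm_le_of_normedFrame hP' hpd' hv hq0
  simp only [det_transpose] at h1 h2
  refine ⟨v, fun c => ?_, h0, h1, fun r hr hr1 => ⟨Sz.lm_integrable v.det r, Sz.log_le_lm h0 r, ?_⟩⟩
  · rw [← hv c]
    congr 1
    funext z
    rw [hq_eq]
    rfl
  · have h3 := Sz.lm_mono hq0 hr hr1
    have h4 : Real.circleAverage (fun z => Real.log ‖v.det.eval z‖) 0 r = Sz.lm v.det r := rfl
    rw [h4]
    linarith

end Vale.Agent.P272.HY
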