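import Vale.Agent.P272.Sz.Final
set_option linter.unusedSectionVars false

/-!
# P272, block Sz: the matrix Szego inequality

`matrix_szego` : if `P` is a continuous positive definite matrix valued function on the unit circle,
`Q` is positive definite and `p(0)^* Q p(0) ≤ lam * avg p^* P p` for all polynomial vectors `p`, then
`log det Q ≤ card * log lam + avg log det P`.
-/

namespace Vale.Agent.P272.Sz

open Matrix Complex Metric
open scoped ComplexOrder

variable {ι : Type*} [Fintype ι] [DecidableEq ι]

theorem exists_delta {P : ℂ → Matrix ι ι ℂ} (hP : ContinuousOn P (sphere 0 1))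
    (hpd : ∀ z ∈ sphere (0 : ℂ) 1, (P z).PosDef) :
    ∃ δ : ℝ, 0 < δ ∧ ∀ z ∈ sphere (0 : ℂ) 1, (P z - (δ : ℂ) • (1 : Matrix ι ι ℂ)).PosSemidef := by
  rcases isEmpty_or_nonempty ι with hι | hι
  · refine ⟨1, one_pos, fun z hz => ?_⟩
    have : P z - ((1 : ℝ) : ℂ) • (1 : Matrix ι ι ℂ) = 0 := Subsingleton.elim _ _
    rw [this]
    exact Matrix.PosSemidef.zero
  · let S : Set (ℂ × (ι → ℂ)) := sphere (0 : ℂ) 1 ×ˢ sphere (0 : ι → ℂ) 1
    have hS : IsCompact S := (isCompact_sphere _ _).prod (isCompact_sphere _ _)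
    have hSn : S.Nonempty :=
      (NormedSpace.sphere_nonempty.2 zero_le_one).prod (NormedSpace.sphere_nonempty.2 zero_le_one)
    let φ : ℂ × (ι → ℂ) → ℝ := fun x => (star x.2 ⬝ᵥ P x.1 *ᵥ x.2).re
    have hφ : ContinuousOn φ S := by
      refine Complex.continuous_re.comp_continuousOn ?_
      simp only [dotProduct, mulVec, Pi.star_apply]
      refine continuousOn_finsetSum _ fun a _ => ContinuousOn.mul ?_ ?_
      · exact ((continuous_apply a).comp continuous_snd).star.continuousOn
      · refine continuousOn_finsetSum _ fun b _ => ContinuousOn.mul ?_ ?_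
        · exact (entry_cont hP a b).comp continuous_fst.continuousOn fun x hx => hx.1
        · exact ((continuous_apply b).comp continuous_snd).continuousOn
    obtain ⟨⟨z₀, x₀⟩, hx₀, hmin⟩ := hS.exists_isMinOn hSn hφ
    have hpos : 0 < φ (z₀, x₀) := by
      have h1 := (hpd z₀ hx₀.1).dotProduct_mulVec_pos (x := x₀) (by
        rintro rfl
        have := hx₀.2
        simp at this)
      exact (Complex.lt_def.1 h1).1
    set c := φ (z₀, x₀) with hc
    have hcard : (0 : ℝ) < Fintype.card ι := by exact_mod_cast Fintype.card_pos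
    refine ⟨c / Fintype.card ι, by positivity, fun z hz => ?_⟩
    have hH : (P z - ((c / Fintype.card ι : ℝ) : ℂ) • (1 : Matrix ι ι ℂ)).IsHermitian := by
      refine IsHermitian.sub (hpd z hz).isHermitian ?_
      rw [IsHermitian, conjTranspose_smul, conjTranspose_one]
      congr 1
      exact Complex.conj_ofReal _
    refine posSemidef_of_re hH fun x => ?_
    rw [sub_mulVec, dotProduct_sub, Complex.sub_re, smul_mulVec, one_mulVec, dotProduct_smul,
      smul_eq_mul, sub_nonneg]
    have h1 : (star x ⬝ᵥ x) = ((∑ a, ‖x a‖ ^ 2 : ℝ) : ℂ) := by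
      simp only [dotProduct, Pi.star_apply]
      push_cast
      refine Finset.sum_congr rfl fun a _ => ?_
      rw [mul_comm]
      exact Complex.mul_conj' (x a)
    rw [h1, ← Complex.ofReal_mul, Complex.ofReal_re]
    have h2 : c * ‖x‖ ^ 2 ≤ (star x ⬝ᵥ P z *ᵥ x).re := by
      rcases eq_or_ne x 0 with rfl | hx
      · simp
      · have hn : 0 < ‖x‖ := norm_pos_iff.2 hx
        have h3 : c ≤ φ (z, ((‖x‖⁻¹ : ℝ) : ℂ) • x) := by
          refine hmin ⟨hz, ?_⟩
          rw [mem_sphere_zero_iff_norm, norm_smul, Complex.norm_real, norm_inv, norm_norm]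
          exact inv_mul_cancel₀ hn.ne'
        have h4 : φ (z, ((‖x‖⁻¹ : ℝ) : ℂ) • x) = (‖x‖⁻¹) ^ 2 * (star x ⬝ᵥ P z *ᵥ x).re := by
          simp only [φ]
          rw [mulVec_smul, dotProduct_smul, star_smul, smul_dotProduct, smul_eq_mul, smul_eq_mul,
            ← mul_assoc]
          have h5 : ((‖x‖⁻¹ : ℝ) : ℂ) * star ((‖x‖⁻¹ : ℝ) : ℂ) = (((‖x‖⁻¹) ^ 2 : ℝ) : ℂ) := by
            have : star ((‖x‖⁻¹ : ℝ) : ℂ) = ((‖x‖⁻¹ : ℝ) : ℂ) := Complex.conj_ofReal _
            rw [this]
            push_cast
            ring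
          rw [h5, Complex.re_ofReal_mul]
        rw [h4, inv_pow] at h3
        rwa [inv_mul_eq_div, le_div_iff₀ (by positivity)] at h3
    refine le_trans ?_ h2
    rw [div_mul_eq_mul_div, div_le_iff₀ hcard, mul_assoc]
    refine mul_le_mul_of_nonneg_left ?_ hpos.le
    calc ∑ a, ‖x a‖ ^ 2 ≤ ∑ _a : ι, ‖x‖ ^ 2 :=
          Finset.sum_le_sum fun a _ => pow_le_pow_left₀ (norm_nonneg _) (norm_le_pi_norm x a) 2
      _ = _ := by rw [Finset.sum_const, Finset.card_univ, nsmul_eq_mul, mul_comm]

theorem logdet_le {A B : Matrix ι ι ℂ} (hA : A.PosDef)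
    (hAB : (B - A).PosSemidef) : Real.log A.det.re ≤ Real.log B.det.re := by
  obtain ⟨_, hA2⟩ := det_eq_ofReal hA
  have h := det_le_det hA hAB
  exact Real.log_le_log hA2 (Complex.le_def.1 h).1

theorem logdet_smul {A : Matrix ι ι ℂ} (hA : A.PosDef) {c : ℝ} (hc : 0 < c) :
    Real.log ((c : ℂ) • A).det.re = Fintype.card ι * Real.log c + Real.log A.det.re := by
  obtain ⟨hA1, hA2⟩ := det_eq_ofReal hA
  rw [det_smul]
  have h1 : ((c : ℂ) ^ Fintype.card ι * A.det).re = c ^ Fintype.card ι * A.det.re := by
    rw [← Complex.ofReal_pow, Complex.re_ofReal_mul]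
  rw [h1, Real.log_mul (by positivity) hA2.ne', Real.log_pow]

/-- **Matrix Szego inequality**, coefficient form. -/
theorem szego_coeff {P : ℂ → Matrix ι ι ℂ} (hP : ContinuousOn P (sphere 0 1))
    (hpd : ∀ z ∈ sphere (0 : ℂ) 1, (P z).PosDef) {Q : Matrix ι ι ℂ} (hQ : Q.PosDef)
    (hyp : Hyp P Q) :
    Real.log Q.det.re ≤ Real.circleAverage (fun z => Real.log (P z).det.re) 0 1 := by
  obtain ⟨δ, hδ, hge⟩ := exists_delta hP hpd
  set n := Fintype.card ι with hn
  have key : ∀ ε : ℝ, 0 < ε → Real.log Q.det.re ≤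
      n * (2 * ε / δ) + Real.circleAverage (fun z => Real.log (P z).det.re) 0 1 := by
    intro ε hε
    obtain ⟨m, R, hT, hR⟩ := exists_trig hP (fun z hz => (hpd z hz).isHermitian) hε
    have hRc := hT.continuousOn
    have hRge : ∀ z ∈ sphere (0 : ℂ) 1, (R z - (δ : ℂ) • (1 : Matrix ι ι ℂ)).PosSemidef := by
      intro z hz
      have := (hR z hz).1.add (hge z hz)
      simpa using this
    have hRpd : ∀ z ∈ sphere (0 : ℂ) 1, (R z).PosDef := fun z hz => posDef_of_ge hδ (hRge z hz)
    have hypR : Hyp R Q := by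
      intro L w
      refine le_trans (hyp L w) ?_
      rw [← toep_form hP, ← toep_form hRc]
      have h1 : (toep (fun z => R z - P z) (L + 1)).PosSemidef :=
        toep_posSemidef (hRc.sub hP) (fun z hz => (hR z hz).1) (L + 1)
      have h2 := (Complex.le_def.1 (h1.dotProduct_mulVec_nonneg (x := w))).1
      rw [toep_sub hRc hP, sub_mulVec, dotProduct_sub, Complex.sub_re, Complex.zero_re] at h2
      linarith
    refine le_trans (szego_trig hRc hδ hRge hT hQ hypR) ?_
    have hcP : ∀ z ∈ sphere (0 : ℂ) 1, Real.log (R z).det.re ≤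
        n * (2 * ε / δ) + Real.log (P z).det.re := by
      intro z hz
      have hc0 : 0 < 1 + 2 * ε / δ := by positivity
      have h1 : ((((1 + 2 * ε / δ : ℝ) : ℂ)) • P z - R z).PosSemidef := by
        have h2 := (hR z hz).2
        have h3 : ((((2 * ε / δ : ℝ)) : ℂ) • (P z - (δ : ℂ) • (1 : Matrix ι ι ℂ))).PosSemidef := by
          refine (hge z hz).smul ?_
          have : (0 : ℝ) ≤ 2 * ε / δ := by positivity
          exact_mod_cast this
        have h4 := h2.add h3
        have hδc : (δ : ℂ) ≠ 0 := by exact_mod_cast hδ.ne'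
        convert h4 using 1
        rw [smul_sub, smul_smul]
        have h5 : (((2 * ε / δ : ℝ)) : ℂ) * (δ : ℂ) = ((2 * ε : ℝ) : ℂ) := by
          rw [← Complex.ofReal_mul]
          congr 1
          field_simp
        rw [h5]
        push_cast
        module
      have hc0' : (0 : ℂ) < (((1 + 2 * ε / δ : ℝ)) : ℂ) := by exact_mod_cast hc0
      have h6 := logdet_le (hRpd z hz) h1
      rw [logdet_smul (hpd z hz) hc0] at h6
      have h7 : Real.log (1 + 2 * ε / δ) ≤ 2 * ε / δ := by
        have := Real.log_le_sub_one_of_pos hc0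
        linarith
      have h8 : (n : ℝ) * Real.log (1 + 2 * ε / δ) ≤ n * (2 * ε / δ) :=
        mul_le_mul_of_nonneg_left h7 (by positivity)
      linarith
    have hPc := logdet_cont hP hpd
    calc Real.circleAverage (fun z => Real.log (R z).det.re) 0 1
        ≤ Real.circleAverage (fun z => n * (2 * ε / δ) + Real.log (P z).det.re) 0 1 := by
          refine Real.circleAverage_mono (ci_of_contR (logdet_cont hRc hRpd))
            (ci_of_contR (continuousOn_const.add hPc)) ?_
          intro z hz
          exact hcP z (by simpa using hz)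
      _ = _ := by
          rw [Real.circleAverage_fun_add (ci_of_contR continuousOn_const) (ci_of_contR hPc),
            Real.circleAverage_const]
  refine le_of_forall_pos_le_add fun η hη => ?_
  have h1 := key (η * δ / (2 * (n + 1))) (by positivity)
  have h2 : (n : ℝ) * (2 * (η * δ / (2 * (n + 1))) / δ) ≤ η := by
    have : (n : ℝ) * (2 * (η * δ / (2 * (n + 1))) / δ) = η * (n / (n + 1)) := by
      field_simp
    rw [this]
    have h3 : (n : ℝ) / (n + 1) ≤ 1 := by
      rw [div_le_one (by positivity)]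
      linarith
    nlinarith
  linarith

/-- **Matrix Szego inequality.** -/
theorem matrix_szego {P : ℂ → Matrix ι ι ℂ} (hP : ContinuousOn P (sphere 0 1))
    (hpd : ∀ z ∈ sphere (0 : ℂ) 1, (P z).PosDef) {Q : Matrix ι ι ℂ} (hQ : Q.PosDef)
    {lam : ℝ} (hlam : 0 < lam)
    (h : ∀ p : ι → Polynomial ℂ,
      (star (fun a => (p a).eval 0) ⬝ᵥ Q *ᵥ (fun a => (p a).eval 0)).re ≤
        lam * Real.circleAverage
          (fun z => (star (fun a => (p a).eval z) ⬝ᵥ P z *ᵥ (fun a => (p a).eval z)).re) 0 1) :
    Real.log Q.det.re ≤ Fintype.card ι * Real.log lam +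
      Real.circleAverage (fun z => Real.log (P z).det.re) 0 1 := by
  have hlam' : (0 : ℂ) < (lam : ℂ) := by exact_mod_cast hlam
  have hP' : ContinuousOn (fun z => (lam : ℂ) • P z) (sphere 0 1) := by
    have h := hP.const_smul (lam : ℂ)
    exact h
  have h1 : Hyp (fun z => (lam : ℂ) • P z) Q := by
    intro L w
    let p : ι → Polynomial ℂ := fun a => ∑ j : Fin (L + 1), Polynomial.C (w (a, j)) * Polynomial.X ^ (j : ℕ)
    have hp : ∀ z, (fun a => (p a).eval z) = pv w z := by
      intro z
      ext a
      simp [p, pv, Polynomial.eval_finsetSum]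
    have hp0 : (fun a => (p a).eval 0) = fun a => w (a, 0) := by
      rw [hp]
      ext a
      simp only [pv]
      rw [Finset.sum_eq_single 0]
      · simp
      · intro j _ hj
        have : (j : ℕ) ≠ 0 := fun h => hj (Fin.ext h)
        simp [this]
      · intro h
        exact absurd (Finset.mem_univ _) h
    have h2 := h p
    rw [hp0] at h2
    refine le_trans h2 (le_of_eq ?_)
    have hfc : ContinuousOn (fun z => star (pv w z) ⬝ᵥ P z *ᵥ pv w z) (sphere 0 1) := by
      have h1 : Continuous (pv w) := by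
        refine continuous_pi fun a => ?_
        simp only [pv]
        fun_prop
      have h3 : ContinuousOn (fun z => P z *ᵥ pv w z) (sphere 0 1) := by
        refine continuousOn_pi.2 fun a => ?_
        simp only [mulVec, dotProduct]
        refine continuousOn_finsetSum _ fun b _ => (entry_cont hP a b).mul ?_
        exact ((continuous_apply b).comp h1).continuousOn
      simp only [dotProduct]
      refine continuousOn_finsetSum _ fun a _ => ?_
      refine ContinuousOn.mul ?_ ?_
      · exact (((continuous_apply a).comp h1).star).continuousOn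
      · exact (continuous_apply a).comp_continuousOn h3
    have h3 : (fun z => star (pv w z) ⬝ᵥ ((lam : ℂ) • P z) *ᵥ pv w z) =
        fun z => (lam : ℂ) * (star (pv w z) ⬝ᵥ P z *ᵥ pv w z) := by
      ext z
      rw [smul_mulVec, dotProduct_smul, smul_eq_mul]
    rw [h3, av_smul, Complex.re_ofReal_mul, av_re hfc]
    simp only [hp]
  have h4 := szego_coeff hP' (fun z hz => (hpd z hz).smul hlam') hQ h1
  refine le_trans h4 (le_of_eq ?_)
  have h5 : Real.circleAverage (fun z => Real.log ((lam : ℂ) • P z).det.re) 0 1 =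
      Real.circleAverage (fun z => Fintype.card ι * Real.log lam + Real.log (P z).det.re) 0 1 := by
    refine Real.circleAverage_congr_sphere fun z hz => ?_
    exact logdet_smul (hpd z (by simpa using hz)) hlam
  rw [h5, Real.circleAverage_fun_add (ci_of_contR continuousOn_const)
    (ci_of_contR (logdet_cont hP hpd)), Real.circleAverage_const]

end Vale.Agent.P272.Sz
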