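import Vale.Agent.P272.Sz.Toep
set_option linter.unusedSectionVars false

/-!
# P272, block Sz: the lower bound `(det Q)^L ≤ det T_L(P)`
-/

namespace Vale.Agent.P272.Sz

open Matrix Complex Metric
open scoped ComplexOrder

variable {ι : Type*} [Fintype ι] [DecidableEq ι]

/-- The hypothesis on a symbol `P` and a matrix `Q`, in terms of coefficients. -/
def Hyp (P : ℂ → Matrix ι ι ℂ) (Q : Matrix ι ι ℂ) : Prop :=
  ∀ (L : ℕ) (w : ι × Fin (L + 1) → ℂ),
    (star (fun a => w (a, 0)) ⬝ᵥ Q *ᵥ (fun a => w (a, 0))).re ≤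
      (av (fun z => star (pv w z) ⬝ᵥ P z *ᵥ pv w z)).re

/-- splitting off the constant coefficient -/
def splitZero (ι : Type*) (L : ℕ) : ι ⊕ (ι × Fin L) ≃ ι × Fin (L + 1) where
  toFun := Sum.elim (fun a => (a, 0)) (fun x => (x.1, x.2.succ))
  invFun := fun y => Fin.cases (Sum.inl y.1) (fun j => Sum.inr (y.1, j)) y.2
  left_inv := by
    rintro (a | ⟨a, j⟩) <;> simp
  right_inv := by
    rintro ⟨a, j⟩
    refine Fin.cases ?_ (fun j => ?_) j <;> simp

@[simp] theorem splitZero_inl (L : ℕ) (a : ι) : splitZero ι L (Sum.inl a) = (a, 0) := rfl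
@[simp] theorem splitZero_inr (L : ℕ) (x : ι × Fin L) :
    splitZero ι L (Sum.inr x) = (x.1, x.2.succ) := rfl

theorem form_submatrix {κ τ : Type*} [Fintype κ] [Fintype τ] (M : Matrix τ τ ℂ) (e : κ ≃ τ)
    (x : κ → ℂ) :
    star x ⬝ᵥ (M.submatrix e e) *ᵥ x = star (x ∘ e.symm) ⬝ᵥ M *ᵥ (x ∘ e.symm) := by
  simp only [dotProduct, mulVec, submatrix_apply, Pi.star_apply, Function.comp]
  rw [← e.symm.sum_comp]
  refine Finset.sum_congr rfl fun i _ => ?_
  rw [← e.symm.sum_comp]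
  simp

theorem im_form_eq_zero {κ : Type*} [Fintype κ] {M : Matrix κ κ ℂ} (h : M.IsHermitian) (x : κ → ℂ) :
    (star x ⬝ᵥ M *ᵥ x).im = 0 := by
  have := h.im_star_dotProduct_mulVec_self x
  simpa using this

theorem posSemidef_of_re {κ : Type*} [Fintype κ] {M : Matrix κ κ ℂ} (h : M.IsHermitian)
    (hre : ∀ x : κ → ℂ, 0 ≤ (star x ⬝ᵥ M *ᵥ x).re) : M.PosSemidef := by
  refine .of_dotProduct_mulVec_nonneg h fun x => ?_
  rw [Complex.le_def]
  exact ⟨hre x, (im_form_eq_zero h x).symm⟩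

theorem stepA_one {P : ℂ → Matrix ι ι ℂ} (hP : ContinuousOn P (sphere 0 1)) {δ : ℝ} (hδ : 0 < δ)
    (hH : ∀ z ∈ sphere (0 : ℂ) 1, (P z - (δ : ℂ) • (1 : Matrix ι ι ℂ)).PosSemidef)
    {Q : Matrix ι ι ℂ} (hQ : Q.PosDef) (hyp : Hyp P Q) (L : ℕ) :
    Q.det * (toep P L).det ≤ (toep P (L + 1)).det := by
  have hT : ∀ L, (toep P L).PosDef := fun L => posDef_of_ge hδ (toep_ge hP hH L)
  set M := (toep P (L + 1)).submatrix (splitZero ι L) (splitZero ι L) with hM
  have hMdet : M.det = (toep P (L + 1)).det := det_submatrix_equiv_self _ _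
  have hMH : M.IsHermitian := (hT (L + 1)).isHermitian.submatrix _
  have h22 : M.toBlocks₂₂ = toep P L := by
    ext ⟨a, j⟩ ⟨b, k⟩
    simp only [toBlocks₂₂, of_apply, hM, submatrix_apply, splitZero_inr, toep, Fin.val_succ]
    congr 1
    ext z
    congr 2
    push_cast
    ring
  have h21 : M.toBlocks₂₁ = M.toBlocks₁₂ᴴ := by
    ext x a
    simp only [toBlocks₂₁, toBlocks₁₂, of_apply, conjTranspose_apply]
    exact (hMH.apply _ _).symm
  have hblocks : M = fromBlocks M.toBlocks₁₁ M.toBlocks₁₂ M.toBlocks₁₂ᴴ (toep P L) := by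
    rw [← h21, ← h22, fromBlocks_toBlocks]
  have hsub : fromBlocks (M.toBlocks₁₁ - Q) M.toBlocks₁₂ M.toBlocks₁₂ᴴ (toep P L) =
      M - fromBlocks Q 0 0 0 := by
    conv_rhs => rw [hblocks]
    rw [sub_eq_add_neg (fromBlocks _ _ _ _), fromBlocks_neg, fromBlocks_add]
    simp [sub_eq_add_neg]
  rw [← hMdet, hblocks]
  refine det_mul_det_le hQ (hT L) ?_
  rw [hsub]
  have hQH : (fromBlocks Q 0 0 (0 : Matrix (ι × Fin L) (ι × Fin L) ℂ)).IsHermitian := by
    refine IsHermitian.fromBlocks hQ.isHermitian ?_ isHermitian_zero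
    simp
  refine posSemidef_of_re (hMH.sub hQH) fun x => ?_
  rw [sub_mulVec, dotProduct_sub, Complex.sub_re, hM, form_submatrix, toep_form hP, sub_nonneg]
  refine le_trans (le_of_eq ?_) (hyp L (x ∘ (splitZero ι L).symm))
  congr 1
  have h0 : ∀ a, (x ∘ (splitZero ι L).symm) (a, 0) = x (Sum.inl a) := by
    intro a
    simp [splitZero]
  simp only [h0]
  simp [dotProduct, mulVec, Fintype.sum_sum_type]

theorem stepA {P : ℂ → Matrix ι ι ℂ} (hP : ContinuousOn P (sphere 0 1)) {δ : ℝ} (hδ : 0 < δ)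
    (hH : ∀ z ∈ sphere (0 : ℂ) 1, (P z - (δ : ℂ) • (1 : Matrix ι ι ℂ)).PosSemidef)
    {Q : Matrix ι ι ℂ} (hQ : Q.PosDef) (hyp : Hyp P Q) (L : ℕ) :
    Q.det ^ L ≤ (toep P L).det := by
  induction L with
  | zero => simp [det_isEmpty]
  | succ L ih =>
    rw [pow_succ, mul_comm]
    exact le_trans (mul_le_mul_of_nonneg_left ih hQ.det_pos.le) (stepA_one hP hδ hH hQ hyp L)

end Vale.Agent.P272.Sz
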