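import Vale.Agent.P272.Sz.StepA
set_option linter.unusedSectionVars false

/-!
# P272, block Sz: the upper bound by block circulants, for trigonometric polynomial symbols
-/

namespace Vale.Agent.P272.Sz

open Matrix Complex Metric
open scoped ComplexOrder

variable {ι : Type*} [Fintype ι] [DecidableEq ι]

/-- nodes: `u` times the `N`-th roots of unity -/
noncomputable def node (u : ℂ) (N : ℕ) (t : ℕ) : ℂ := u * (exp (2 * Real.pi * I / N)) ^ t

theorem node_mem {u : ℂ} (hu : u ∈ sphere (0 : ℂ) 1) {N : ℕ} (hN : N ≠ 0) (t : ℕ) :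
    node u N t ∈ sphere (0 : ℂ) 1 := by
  have h1 : ‖exp (2 * Real.pi * I / N)‖ = 1 :=
    (Complex.isPrimitiveRoot_exp N hN).norm'_eq_one hN
  have h2 : ‖u‖ = 1 := by simpa using hu
  simp [node, h1, h2]

/-- discrete average of `z ^ s` over the nodes -/
theorem node_avg {u : ℂ} (hu : u ∈ sphere (0 : ℂ) 1) {N : ℕ} (hN : N ≠ 0) {s : ℤ}
    (hs : |s| < N) :
    (N : ℂ)⁻¹ * ∑ t : Fin N, (node u N t) ^ s = if s = 0 then 1 else 0 := by
  have hprim := Complex.isPrimitiveRoot_exp N hN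
  set ζ := exp (2 * Real.pi * I / N) with hζ
  have hN' : (N : ℂ) ≠ 0 := by exact_mod_cast hN
  split_ifs with h
  · subst h
    simp [hN']
  · have h1 : ζ ^ s ≠ 1 := by
      intro h1
      have := (hprim.zpow_eq_one_iff_dvd s).1 h1
      obtain ⟨k, hk⟩ := this
      have hk0 : k ≠ 0 := by
        rintro rfl
        simp at hk
        exact h hk
      have : (N : ℤ) ≤ |s| := by
        rw [hk, abs_mul]
        have : 1 ≤ |k| := Int.one_le_abs hk0
        have h3 : |(N : ℤ)| = N := abs_of_nonneg (by positivity)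
        rw [h3]
        nlinarith
      omega
    have h2 : ∀ t : Fin N, (node u N t) ^ s = u ^ s * (ζ ^ s) ^ (t : ℕ) := by
      intro t
      rw [node, mul_zpow, ← hζ, ← zpow_natCast, ← zpow_natCast, ← _root_.zpow_mul, ← _root_.zpow_mul, mul_comm (t : ℤ)]
    simp only [h2]
    rw [← Finset.mul_sum, Fin.sum_univ_eq_sum_range (fun t => (ζ ^ s) ^ t) N, geom_sum_eq h1]
    have h3 : (ζ ^ s) ^ N = 1 := by
      rw [← zpow_natCast, ← _root_.zpow_mul, mul_comm, _root_.zpow_mul, zpow_natCast, hprim.pow_eq_one, _root_.one_zpow]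
    rw [h3]
    simp

/-- the Fourier matrix -/
noncomputable def four (ι : Type*) [DecidableEq ι] (u : ℂ) (N : ℕ) : Matrix (ι × Fin N) (ι × Fin N) ℂ :=
  fun x y => if x.1 = y.1 then (node u N x.2) ^ (y.2 : ℕ) / (Real.sqrt N : ℂ) else 0

theorem four_mul {u : ℂ} {N : ℕ} (M : Fin N → Matrix ι ι ℂ) (x y : ι × Fin N) :
    (blockDiagonal M * four ι u N) x y =
      M x.2 x.1 y.1 * ((node u N x.2) ^ (y.2 : ℕ) / (Real.sqrt N : ℂ)) := by
  obtain ⟨a, j⟩ := x
  obtain ⟨b, k⟩ := y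
  rw [mul_apply, Fintype.sum_prod_type, Finset.sum_eq_single b, Finset.sum_eq_single j]
  · simp [four, blockDiagonal_apply]
  · intro t _ ht
    simp [four, blockDiagonal_apply, ht.symm]
  · intro h
    exact absurd (Finset.mem_univ _) h
  · intro c _ hc
    simp [four, hc]
  · intro h
    exact absurd (Finset.mem_univ _) h

theorem four_conj_mul {u : ℂ} (hu : u ∈ sphere (0 : ℂ) 1) {N : ℕ} (hN : N ≠ 0)
    (M : Fin N → Matrix ι ι ℂ) (x y : ι × Fin N) :
    ((four ι u N)ᴴ * (blockDiagonal M * four ι u N)) x y =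
      (N : ℂ)⁻¹ * ∑ t : Fin N, (node u N t) ^ ((y.2 : ℤ) - (x.2 : ℤ)) * M t x.1 y.1 := by
  obtain ⟨a, j⟩ := x
  obtain ⟨b, k⟩ := y
  have hsq : (Real.sqrt N : ℂ) * (Real.sqrt N : ℂ) = N := by
    rw [← ofReal_mul, Real.mul_self_sqrt (by positivity)]
    simp
  have hsq' : ((Real.sqrt N : ℂ))⁻¹ * ((Real.sqrt N : ℂ))⁻¹ = (N : ℂ)⁻¹ := by
    rw [← mul_inv, hsq]
  rw [mul_apply, Fintype.sum_prod_type, Finset.sum_eq_single a]
  · rw [Finset.mul_sum]
    refine Finset.sum_congr rfl fun t _ => ?_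
    have hmem := node_mem hu hN (t : ℕ)
    have hne := ne_zero_of_mem hmem
    rw [four_mul]
    simp only [conjTranspose_apply, four, if_true]
    have h1 : star (node u N t ^ (j : ℕ) / (Real.sqrt N : ℂ)) =
        (node u N t)⁻¹ ^ (j : ℕ) * ((Real.sqrt N : ℂ))⁻¹ := by
      rw [star_div₀, star_pow, conj_eq_inv hmem, div_eq_mul_inv]
      congr 2
      exact Complex.conj_ofReal _
    rw [h1, zpow_sub₀ hne, zpow_natCast, zpow_natCast, inv_pow, ← hsq']
    ring
  · intro c _ hc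
    refine Finset.sum_eq_zero fun t _ => ?_
    simp [four, conjTranspose_apply, hc]
  · intro h
    exact absurd (Finset.mem_univ _) h

theorem four_unitary {u : ℂ} (hu : u ∈ sphere (0 : ℂ) 1) {N : ℕ} (hN : N ≠ 0) :
    (four ι u N)ᴴ * four ι u N = 1 := by
  ext x y
  have h := four_conj_mul (ι := ι) hu hN (fun _ : Fin N => (1 : Matrix ι ι ℂ)) x y
  have hb : blockDiagonal (fun _ : Fin N => (1 : Matrix ι ι ℂ)) = 1 := blockDiagonal_one
  rw [hb, Matrix.one_mul] at h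
  rw [h]
  rw [← Finset.sum_mul, ← mul_assoc, node_avg hu hN]
  · by_cases h1 : x = y
    · subst h1
      simp
    · rw [Matrix.one_apply_ne h1]
      by_cases h2 : x.1 = y.1
      · have h3 : x.2 ≠ y.2 := fun h => h1 (Prod.ext h2 h)
        have h4 : ((y.2 : ℤ) - (x.2 : ℤ)) ≠ 0 := by
          intro h
          apply h3
          apply Fin.ext
          omega
        rw [if_neg h4, zero_mul]
      · rw [Matrix.one_apply_ne h2, mul_zero]
  · have h1 := x.2.2
    have h2 := y.2.2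
    rw [abs_lt]
    omega

/-- the block circulant -/
noncomputable def circ (P : ℂ → Matrix ι ι ℂ) (u : ℂ) (N : ℕ) : Matrix (ι × Fin N) (ι × Fin N) ℂ :=
  (four ι u N)ᴴ * (blockDiagonal (fun t : Fin N => P (node u N t)) * four ι u N)

theorem circ_det (P : ℂ → Matrix ι ι ℂ) {u : ℂ} (hu : u ∈ sphere (0 : ℂ) 1) {N : ℕ} (hN : N ≠ 0) :
    (circ P u N).det = ∏ t : Fin N, (P (node u N t)).det := by
  have h1 : ((four ι u N)ᴴ).det * (four ι u N).det = 1 := by
    rw [← det_mul, four_unitary hu hN, det_one]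
  rw [circ, det_mul, det_mul, det_blockDiagonal]
  calc _ = (((four ι u N)ᴴ).det * (four ι u N).det) * ∏ t : Fin N, (P (node u N t)).det := by ring
    _ = _ := by rw [h1, one_mul]

theorem blockDiagonal_posSemidef {N : ℕ} {M : Fin N → Matrix ι ι ℂ} (h : ∀ t, (M t).PosSemidef) :
    (blockDiagonal M).PosSemidef := by
  have h1 : ∀ t, ∃ R : Matrix ι ι ℂ, M t = Rᴴ * R := by
    intro t
    open scoped MatrixOrder in
    obtain ⟨R, hR⟩ := CStarAlgebra.nonneg_iff_eq_star_mul_self.mp (h t).nonneg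
    exact ⟨R, hR⟩
  choose R hR using h1
  have h2 : blockDiagonal M = (blockDiagonal R)ᴴ * blockDiagonal R := by
    rw [blockDiagonal_conjTranspose, ← blockDiagonal_mul]
    congr 1
    ext t : 1
    exact hR t
  rw [h2]
  exact posSemidef_conjTranspose_mul_self _

theorem circ_ge {P : ℂ → Matrix ι ι ℂ} {δ : ℝ}
    (hH : ∀ z ∈ sphere (0 : ℂ) 1, (P z - (δ : ℂ) • (1 : Matrix ι ι ℂ)).PosSemidef)
    {u : ℂ} (hu : u ∈ sphere (0 : ℂ) 1) {N : ℕ} (hN : N ≠ 0) :
    (circ P u N - (δ : ℂ) • (1 : Matrix (ι × Fin N) (ι × Fin N) ℂ)).PosSemidef := by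
  have h1 : circ P u N - (δ : ℂ) • (1 : Matrix (ι × Fin N) (ι × Fin N) ℂ) =
      (four ι u N)ᴴ * blockDiagonal (fun t : Fin N => P (node u N t) - (δ : ℂ) • 1) * four ι u N := by
    have h2 : blockDiagonal (fun t : Fin N => P (node u N t) - (δ : ℂ) • (1 : Matrix ι ι ℂ)) =
        blockDiagonal (fun t : Fin N => P (node u N t)) - (δ : ℂ) • 1 := by
      rw [← blockDiagonal_one, ← blockDiagonal_smul, ← blockDiagonal_sub]
      rfl
    rw [h2, circ, Matrix.mul_sub, Matrix.sub_mul, Matrix.mul_smul, Matrix.mul_one, Matrix.smul_mul,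
      four_unitary hu hN, Matrix.mul_assoc]
  rw [h1]
  exact (blockDiagonal_posSemidef fun t => hH _ (node_mem hu hN _)).conjTranspose_mul_mul_same _

/-- `P` is a trigonometric polynomial of degree `≤ m` on the circle. -/
def Trig (P : ℂ → Matrix ι ι ℂ) (m : ℕ) : Prop :=
  ∃ A : ℤ → Matrix ι ι ℂ, ∀ z ∈ sphere (0 : ℂ) 1, P z = ∑ r ∈ Finset.Icc (-(m : ℤ)) m, z ^ r • A r

theorem circ_eq_toep {P : ℂ → Matrix ι ι ℂ} {m : ℕ} (hT : Trig P m)
    {u : ℂ} (hu : u ∈ sphere (0 : ℂ) 1) {L : ℕ} (hL : 0 < L) (a b : ι) (j k : Fin L) :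
    circ P u (L + m) (a, Fin.castAdd m j) (b, Fin.castAdd m k) = toep P L (a, j) (b, k) := by
  obtain ⟨A, hA⟩ := hT
  have hN : L + m ≠ 0 := by omega
  have hav : toep P L (a, j) (b, k) = ∑ r ∈ Finset.Icc (-(m : ℤ)) m,
      (if ((k : ℤ) - (j : ℤ)) + r = 0 then 1 else 0) * A r a b := by
    have h1 : ∀ z ∈ sphere (0 : ℂ) 1, z ^ (((k : ℕ) : ℤ) - ((j : ℕ) : ℤ)) * P z a b =
        ∑ r ∈ Finset.Icc (-(m : ℤ)) m, A r a b * z ^ ((((k : ℕ) : ℤ) - ((j : ℕ) : ℤ)) + r) := by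
      intro z hz
      rw [hA z hz, Matrix.sum_apply, Finset.mul_sum]
      refine Finset.sum_congr rfl fun r _ => ?_
      rw [zpow_add₀ (ne_zero_of_mem hz), Matrix.smul_apply, smul_eq_mul]
      ring
    simp only [toep]
    rw [av_congr h1]
    unfold av
    rw [Real.circleAverage_fun_sum]
    · refine Finset.sum_congr rfl fun r _ => ?_
      have := av_smul (A r a b) (fun z => z ^ ((((k : ℕ) : ℤ) - ((j : ℕ) : ℤ)) + r))
      unfold av at this
      rw [this]
      have h3 := av_zpow ((((k : ℕ) : ℤ) - ((j : ℕ) : ℤ)) + r)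
      unfold av at h3
      rw [h3]
      ring
    · intro r _
      exact ci_of_cont (continuousOn_const.mul (zpow_cont _))
  rw [hav, circ, four_conj_mul hu hN]
  simp only [Fin.val_castAdd]
  have h1 : ∀ t : Fin (L + m), (node u (L + m) t) ^ (((k : ℕ) : ℤ) - ((j : ℕ) : ℤ)) *
      P (node u (L + m) t) a b =
        ∑ r ∈ Finset.Icc (-(m : ℤ)) m,
          A r a b * (node u (L + m) t) ^ ((((k : ℕ) : ℤ) - ((j : ℕ) : ℤ)) + r) := by
    intro t
    have hmem := node_mem hu hN (t : ℕ)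
    rw [hA _ hmem, Matrix.sum_apply, Finset.mul_sum]
    refine Finset.sum_congr rfl fun r _ => ?_
    rw [zpow_add₀ (ne_zero_of_mem hmem), Matrix.smul_apply, smul_eq_mul]
    ring
  simp only [h1]
  rw [Finset.sum_comm, Finset.mul_sum]
  refine Finset.sum_congr rfl fun r hr => ?_
  rw [← Finset.mul_sum, mul_left_comm, node_avg hu hN]
  · ring
  · have h2 := j.2
    have h3 := k.2
    rw [Finset.mem_Icc] at hr
    rw [abs_lt]
    push_cast
    omega

/-- low frequencies versus the remaining `m` frequencies -/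
def splitTop (ι : Type*) (L m : ℕ) : (ι × Fin m) ⊕ (ι × Fin L) ≃ ι × Fin (L + m) :=
  (Equiv.sumComm _ _).trans
    ((Equiv.prodSumDistrib ι (Fin L) (Fin m)).symm.trans
      (Equiv.prodCongr (Equiv.refl ι) finSumFinEquiv))

@[simp] theorem splitTop_inr (L m : ℕ) (x : ι × Fin L) :
    splitTop ι L m (Sum.inr x) = (x.1, Fin.castAdd m x.2) := rfl

theorem stepB {P : ℂ → Matrix ι ι ℂ} (hP : ContinuousOn P (sphere 0 1)) {δ : ℝ} (hδ : 0 < δ)
    (hH : ∀ z ∈ sphere (0 : ℂ) 1, (P z - (δ : ℂ) • (1 : Matrix ι ι ℂ)).PosSemidef)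
    {m : ℕ} (hT : Trig P m) {u : ℂ} (hu : u ∈ sphere (0 : ℂ) 1) {L : ℕ} (hL : 0 < L) :
    (δ : ℂ) ^ (Fintype.card (ι × Fin m)) * (toep P L).det ≤
      ∏ t : Fin (L + m), (P (node u (L + m) t)).det := by
  have hN : L + m ≠ 0 := by omega
  rw [← circ_det P hu hN]
  set M := (circ P u (L + m)).submatrix (splitTop ι L m) (splitTop ι L m) with hM
  have hMdet : M.det = (circ P u (L + m)).det := det_submatrix_equiv_self _ _
  have hge := circ_ge hH hu hN
  have hMge : (M - (δ : ℂ) • (1 : Matrix _ _ ℂ)).PosSemidef := by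
    have h5 : M - (δ : ℂ) • (1 : Matrix _ _ ℂ) =
        (circ P u (L + m) - (δ : ℂ) • (1 : Matrix _ _ ℂ)).submatrix
          (splitTop ι L m) (splitTop ι L m) := by
      ext x y
      simp [hM, Matrix.one_apply]
    rw [h5]
    exact hge.submatrix _
  have hMH : M.IsHermitian := (posDef_of_ge hδ hMge).isHermitian
  have h22 : M.toBlocks₂₂ = toep P L := by
    ext ⟨a, j⟩ ⟨b, k⟩
    simp only [toBlocks₂₂, of_apply, hM, submatrix_apply, splitTop_inr]
    exact circ_eq_toep hT hu hL a b j k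
  have h21 : M.toBlocks₂₁ = M.toBlocks₁₂ᴴ := by
    ext x a
    simp only [toBlocks₂₁, toBlocks₁₂, of_apply, conjTranspose_apply]
    exact (hMH.apply _ _).symm
  have hblocks : M = fromBlocks M.toBlocks₁₁ M.toBlocks₁₂ M.toBlocks₁₂ᴴ (toep P L) := by
    rw [← h21, ← h22, fromBlocks_toBlocks]
  have hsub : fromBlocks (M.toBlocks₁₁ - (δ : ℂ) • (1 : Matrix (ι × Fin m) (ι × Fin m) ℂ))
      M.toBlocks₁₂ M.toBlocks₁₂ᴴ (toep P L) =
      (M - (δ : ℂ) • (1 : Matrix _ _ ℂ)) +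
        fromBlocks 0 0 0 ((δ : ℂ) • (1 : Matrix (ι × Fin L) (ι × Fin L) ℂ)) := by
    conv_rhs => rw [hblocks]
    rw [← fromBlocks_one, fromBlocks_smul, sub_eq_add_neg (fromBlocks _ _ _ _), fromBlocks_neg,
      fromBlocks_add, fromBlocks_add]
    simp [sub_eq_add_neg]
  have hQd : ((δ : ℂ) • (1 : Matrix (ι × Fin m) (ι × Fin m) ℂ)).det =
      (δ : ℂ) ^ (Fintype.card (ι × Fin m)) := by
    rw [det_smul, det_one, mul_one]
  rw [← hMdet, hblocks, ← hQd]
  have hδ' : (0 : ℂ) < (δ : ℂ) := by exact_mod_cast hδ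
  refine det_mul_det_le (Matrix.PosDef.one.smul hδ') (posDef_of_ge hδ (toep_ge hP hH L)) ?_
  rw [hsub]
  refine hMge.add ?_
  have h4 : fromBlocks (0 : Matrix (ι × Fin m) (ι × Fin m) ℂ) 0 0
      ((δ : ℂ) • (1 : Matrix (ι × Fin L) (ι × Fin L) ℂ)) =
      (δ : ℂ) • ((fromBlocks (0 : Matrix (ι × Fin m) (ι × Fin m) ℂ) 0 0 1)ᴴ *
        fromBlocks (0 : Matrix (ι × Fin m) (ι × Fin m) ℂ) 0 0
          (1 : Matrix (ι × Fin L) (ι × Fin L) ℂ)) := by
    rw [fromBlocks_conjTranspose, fromBlocks_multiply, fromBlocks_smul]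
    simp
  rw [h4]
  exact (posSemidef_conjTranspose_mul_self _).smul hδ'.le

end Vale.Agent.P272.Sz
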