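import Vale.Agent.P272.Sz.StepB
set_option linter.unusedSectionVars false

/-!
# P272, block Sz: the inequality for trigonometric polynomial symbols
-/

namespace Vale.Agent.P272.Sz

open Matrix Complex Metric
open scoped ComplexOrder

variable {ι : Type*} [Fintype ι] [DecidableEq ι]

theorem circleAverage_rot {c : ℂ} (hc : c ∈ sphere (0 : ℂ) 1) (g : ℂ → ℝ) :
    Real.circleAverage (fun z => g (z * c)) 0 1 = Real.circleAverage g 0 1 := by
  have h1 : ‖c‖ = 1 := by simpa using hc
  obtain ⟨η, hη⟩ : ∃ η : ℝ, c = exp (η * I) := by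
    refine ⟨c.arg, ?_⟩
    have := Complex.norm_mul_exp_arg_mul_I c
    rw [h1] at this
    simpa using this.symm
  rw [Real.circleAverage_eq_integral_add (f := g) η, Real.circleAverage]
  congr 1
  refine intervalIntegral.integral_congr fun θ _ => ?_
  simp only [circleMap, hη]
  congr 1
  push_cast
  rw [add_mul (θ : ℂ) (η : ℂ) I, Complex.exp_add]
  ring

theorem det_eq_ofReal {κ : Type*} [Fintype κ] [DecidableEq κ] {M : Matrix κ κ ℂ} (h : M.PosDef) :
    M.det = ((M.det.re : ℝ) : ℂ) ∧ 0 < M.det.re := by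
  have h1 := h.det_pos
  rw [Complex.lt_def] at h1
  refine ⟨?_, by simpa using h1.1⟩
  apply Complex.ext
  · simp
  · simpa using h1.2.symm

theorem det_cont {P : ℂ → Matrix ι ι ℂ} (hP : ContinuousOn P (sphere 0 1)) :
    ContinuousOn (fun z => (P z).det) (sphere 0 1) := by
  have h : Continuous (fun M : Matrix ι ι ℂ => M.det) := continuous_id.matrix_det
  exact h.comp_continuousOn hP

theorem logdet_cont {P : ℂ → Matrix ι ι ℂ} (hP : ContinuousOn P (sphere 0 1))
    (hpd : ∀ z ∈ sphere (0 : ℂ) 1, (P z).PosDef) :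
    ContinuousOn (fun z => Real.log (P z).det.re) (sphere 0 1) := by
  refine ContinuousOn.log ?_ fun z hz => (det_eq_ofReal (hpd z hz)).2.ne'
  exact Complex.continuous_re.comp_continuousOn (det_cont hP)

theorem szego_trig {P : ℂ → Matrix ι ι ℂ} (hP : ContinuousOn P (sphere 0 1)) {δ : ℝ} (hδ : 0 < δ)
    (hH : ∀ z ∈ sphere (0 : ℂ) 1, (P z - (δ : ℂ) • (1 : Matrix ι ι ℂ)).PosSemidef)
    {m : ℕ} (hT : Trig P m) {Q : Matrix ι ι ℂ} (hQ : Q.PosDef) (hyp : Hyp P Q) :
    Real.log Q.det.re ≤ Real.circleAverage (fun z => Real.log (P z).det.re) 0 1 := by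
  have hpd : ∀ z ∈ sphere (0 : ℂ) 1, (P z).PosDef := fun z hz => posDef_of_ge hδ (hH z hz)
  set g : ℂ → ℝ := fun z => Real.log (P z).det.re with hg
  have hgc : ContinuousOn g (sphere 0 1) := logdet_cont hP hpd
  set K : ℕ := Fintype.card (ι × Fin m) with hK
  obtain ⟨hQe, hQp⟩ := det_eq_ofReal hQ
  -- pointwise inequality
  have h1 : ∀ (L : ℕ), 0 < L → ∀ u ∈ sphere (0 : ℂ) 1,
      K * Real.log δ + L * Real.log Q.det.re ≤ ∑ t : Fin (L + m), g (node u (L + m) t) := by
    intro L hL u hu
    have hN : L + m ≠ 0 := by omega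
    have h2 := stepB hP hδ hH hT hu hL
    have h3 := stepA hP hδ hH hQ hyp L
    have hδ' : (0 : ℂ) ≤ (δ : ℂ) ^ K := by
      have : (0 : ℝ) ≤ δ ^ K := by positivity
      exact_mod_cast this
    have h4 : (δ : ℂ) ^ K * Q.det ^ L ≤ ∏ t : Fin (L + m), (P (node u (L + m) t)).det :=
      le_trans (mul_le_mul_of_nonneg_left h3 hδ') h2
    have h5 : (∏ t : Fin (L + m), (P (node u (L + m) t)).det) =
        ((∏ t : Fin (L + m), (P (node u (L + m) t)).det.re : ℝ) : ℂ) := by
      push_cast
      refine Finset.prod_congr rfl fun t _ => ?_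
      exact (det_eq_ofReal (hpd _ (node_mem hu hN _))).1
    rw [h5, hQe] at h4
    have h6 : δ ^ K * Q.det.re ^ L ≤ ∏ t : Fin (L + m), (P (node u (L + m) t)).det.re := by
      exact_mod_cast h4
    have h7 := Real.log_le_log (by positivity) h6
    rw [Real.log_mul (by positivity) (by positivity), Real.log_pow, Real.log_pow,
      Real.log_prod (fun t _ => (det_eq_ofReal (hpd _ (node_mem hu hN _))).2.ne')] at h7
    exact h7
  -- average over u
  have h2 : ∀ L : ℕ, 0 < L → K * Real.log δ + L * Real.log Q.det.re ≤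
      (L + m : ℝ) * Real.circleAverage g 0 1 := by
    intro L hL
    have hN : L + m ≠ 0 := by omega
    have hζ : ∀ t : ℕ, (exp (2 * Real.pi * I / ((L + m : ℕ) : ℂ))) ^ t ∈ sphere (0 : ℂ) 1 := by
      intro t
      have := node_mem (u := 1) (by simp) hN t
      simpa [node] using this
    have h3 : ∀ t : Fin (L + m), ContinuousOn (fun u => g (node u (L + m) t)) (sphere 0 1) := by
      intro t
      refine hgc.comp ?_ ?_
      · unfold node
        fun_prop
      · intro u hu
        exact node_mem hu hN _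
    have h4 : ∀ t : Fin (L + m), Real.circleAverage (fun u => g (node u (L + m) t)) 0 1 =
        Real.circleAverage g 0 1 := by
      intro t
      exact circleAverage_rot (hζ t) g
    calc K * Real.log δ + L * Real.log Q.det.re
        = Real.circleAverage (fun _ => K * Real.log δ + L * Real.log Q.det.re) 0 1 := by
          rw [Real.circleAverage_const]
      _ ≤ Real.circleAverage (fun u => ∑ t : Fin (L + m), g (node u (L + m) t)) 0 1 := by
          refine Real.circleAverage_mono (ci_of_contR continuousOn_const)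
            (ci_of_contR (continuousOn_finsetSum _ fun t _ => h3 t)) ?_
          intro u hu
          exact h1 L hL u (by simpa using hu)
      _ = _ := by
          rw [Real.circleAverage_fun_sum (fun t _ => ci_of_contR (h3 t))]
          simp only [h4]
          simp
  -- limit
  by_contra hcon
  push Not at hcon
  set G := Real.circleAverage g 0 1 with hG
  obtain ⟨L, hL⟩ := exists_nat_gt ((m * G - K * Real.log δ) / (Real.log Q.det.re - G))
  have h3 := h2 (L + 1) (by omega)
  have h4 : 0 < Real.log Q.det.re - G := by linarith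
  rw [div_lt_iff₀ h4] at hL
  push_cast at h3
  nlinarith

end Vale.Agent.P272.Sz
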