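import Vale.Agent.P272.Sz.Det
set_option linter.unusedSectionVars false

/-!
# P272, block Sz: block Toeplitz matrices of a continuous matrix symbol on the unit circle
-/

namespace Vale.Agent.P272.Sz

open Matrix Complex Metric
open scoped ComplexOrder

variable {ι : Type*} [Fintype ι] [DecidableEq ι]

/-- Average over the unit circle. -/
noncomputable abbrev av (f : ℂ → ℂ) : ℂ := Real.circleAverage f 0 1

theorem ci_of_cont {f : ℂ → ℂ} (hf : ContinuousOn f (sphere 0 1)) : CircleIntegrable f 0 1 := by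
  refine ContinuousOn.circleIntegrable' ?_
  simpa using hf

theorem ci_of_contR {f : ℂ → ℝ} (hf : ContinuousOn f (sphere 0 1)) : CircleIntegrable f 0 1 := by
  refine ContinuousOn.circleIntegrable' ?_
  simpa using hf

theorem av_congr {f g : ℂ → ℂ} (h : ∀ z ∈ sphere (0 : ℂ) 1, f z = g z) : av f = av g := by
  refine Real.circleAverage_congr_sphere fun z hz => h z ?_
  simpa using hz

theorem ne_zero_of_mem {z : ℂ} (hz : z ∈ sphere (0 : ℂ) 1) : z ≠ 0 := by
  rintro rfl
  simp at hz

theorem conj_eq_inv {z : ℂ} (hz : z ∈ sphere (0 : ℂ) 1) : star z = z⁻¹ := by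
  have h1 : ‖z‖ = 1 := by simpa using hz
  have h2 : z * star z = 1 := by
    rw [← starRingEnd_apply, Complex.mul_conj, Complex.normSq_eq_norm_sq, h1]
    norm_num
  exact (eq_inv_of_mul_eq_one_right h2)

theorem zpow_cont (s : ℤ) : ContinuousOn (fun z : ℂ => z ^ s) (sphere 0 1) := by
  intro z hz
  exact (continuousAt_zpow₀ z s (Or.inl (ne_zero_of_mem hz))).continuousWithinAt

theorem av_zpow (s : ℤ) : av (fun z => z ^ s) = if s = 0 then 1 else 0 := by
  unfold av
  rw [Real.circleAverage_eq_circleIntegral one_ne_zero]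
  split_ifs with h
  · subst h
    have h2 : (fun z : ℂ => (z - 0)⁻¹ • z ^ (0 : ℤ)) = fun z => (z - 0)⁻¹ := by
      ext z; simp
    rw [h2, circleIntegral.integral_sub_center_inv (R := 1) 0 one_ne_zero, smul_eq_mul]
    exact inv_mul_cancel₀ Complex.two_pi_I_ne_zero
  · have h2 : ∀ z ∈ sphere (0 : ℂ) 1, (z - 0)⁻¹ • z ^ s = (z - 0) ^ (s - 1) := by
      intro z hz
      have hz0 := ne_zero_of_mem hz
      rw [sub_zero, smul_eq_mul, zpow_sub₀ hz0, zpow_one]
      field_simp
    rw [circleIntegral.integral_congr zero_le_one h2,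
      circleIntegral.integral_sub_zpow_of_ne (by omega)]
    simp

theorem av_smul (c : ℂ) (f : ℂ → ℂ) : av (fun z => c * f z) = c * av f := by
  have := Real.circleAverage_fun_smul (a := c) (f := f) (c := 0) (R := 1)
  simpa [smul_eq_mul] using this

theorem av_conj {f : ℂ → ℂ} (hf : ContinuousOn f (sphere 0 1)) :
    star (av f) = av (fun z => star (f z)) := by
  have := (Complex.conjCLE : ℂ →L[ℝ] ℂ).circleAverage_comp_comm (ci_of_cont hf)
  exact this.symm

theorem av_re {f : ℂ → ℂ} (hf : ContinuousOn f (sphere 0 1)) :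
    (av f).re = Real.circleAverage (fun z => (f z).re) 0 1 := by
  have := Complex.reCLM.circleAverage_comp_comm (ci_of_cont hf)
  exact this.symm

/-- Toeplitz matrix with block symbol `P`. -/
noncomputable def toep (P : ℂ → Matrix ι ι ℂ) (L : ℕ) : Matrix (ι × Fin L) (ι × Fin L) ℂ :=
  fun x y => av (fun z => z ^ ((y.2 : ℤ) - (x.2 : ℤ)) * P z x.1 y.1)

/-- The polynomial vector with coefficients `w`. -/
noncomputable def pv {L : ℕ} (w : ι × Fin L → ℂ) (z : ℂ) : ι → ℂ := fun a => ∑ j : Fin L, w (a, j) * z ^ (j : ℕ)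

omit [Fintype ι] [DecidableEq ι] in
theorem entry_cont {P : ℂ → Matrix ι ι ℂ} (hP : ContinuousOn P (sphere 0 1)) (a b : ι) :
    ContinuousOn (fun z => P z a b) (sphere 0 1) := by
  have h : Continuous (fun M : Matrix ι ι ℂ => M a b) := continuous_apply_apply a b
  exact h.comp_continuousOn hP

omit [Fintype ι] [DecidableEq ι] in
theorem term_cont {P : ℂ → Matrix ι ι ℂ} (hP : ContinuousOn P (sphere 0 1)) (a b : ι) (s : ℤ) :
    ContinuousOn (fun z => z ^ s * P z a b) (sphere 0 1) :=
  (zpow_cont s).mul (entry_cont hP a b)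

theorem toep_form {P : ℂ → Matrix ι ι ℂ} (hP : ContinuousOn P (sphere 0 1)) {L : ℕ}
    (w : ι × Fin L → ℂ) :
    star w ⬝ᵥ toep P L *ᵥ w = av (fun z => star (pv w z) ⬝ᵥ P z *ᵥ pv w z) := by
  have h1 : ∀ z ∈ sphere (0 : ℂ) 1, star (pv w z) ⬝ᵥ P z *ᵥ pv w z =
      ∑ x : ι × Fin L, ∑ y : ι × Fin L,
        (star (w x) * w y) * (z ^ ((y.2 : ℤ) - (x.2 : ℤ)) * P z x.1 y.1) := by
    intro z hz
    have hz0 := ne_zero_of_mem hz
    simp only [dotProduct, mulVec, pv, Pi.star_apply, star_sum, star_mul', star_pow,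
      conj_eq_inv hz, Fintype.sum_prod_type]
    refine Finset.sum_congr rfl fun a _ => ?_
    rw [Finset.sum_mul]
    refine Finset.sum_congr rfl fun j _ => ?_
    rw [Finset.mul_sum]
    refine Finset.sum_congr rfl fun b _ => ?_
    rw [Finset.mul_sum, Finset.mul_sum]
    refine Finset.sum_congr rfl fun k _ => ?_
    rw [zpow_sub₀ hz0, zpow_natCast, zpow_natCast, inv_pow]
    ring
  rw [av_congr h1]
  have h2 : ∀ x y : ι × Fin L, ContinuousOn (fun z : ℂ =>
      (star (w x) * w y) * (z ^ ((y.2 : ℤ) - (x.2 : ℤ)) * P z x.1 y.1)) (sphere 0 1) :=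
    fun x y => continuousOn_const.mul (term_cont hP _ _ _)
  unfold av
  rw [Real.circleAverage_fun_sum]
  · simp only [dotProduct, mulVec, Pi.star_apply]
    refine Finset.sum_congr rfl fun x _ => ?_
    rw [Real.circleAverage_fun_sum (fun y _ => ci_of_cont (h2 x y)), Finset.mul_sum]
    refine Finset.sum_congr rfl fun y _ => ?_
    have := av_smul (star (w x) * w y) (fun z => z ^ ((y.2 : ℤ) - (x.2 : ℤ)) * P z x.1 y.1)
    unfold av at this
    rw [this]
    simp only [toep, av]
    ring
  · intro x _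
    exact ci_of_cont (continuousOn_finsetSum _ fun y _ => h2 x y)

theorem toep_isHermitian {P : ℂ → Matrix ι ι ℂ} (hP : ContinuousOn P (sphere 0 1))
    (hH : ∀ z ∈ sphere (0 : ℂ) 1, (P z).IsHermitian) (L : ℕ) : (toep P L).IsHermitian := by
  ext x y
  rw [conjTranspose_apply]
  unfold toep
  rw [av_conj (term_cont hP _ _ _)]
  refine av_congr fun z hz => ?_
  have hz0 := ne_zero_of_mem hz
  have h1 : star (P z y.1 x.1) = P z x.1 y.1 := (hH z hz).apply x.1 y.1
  rw [star_mul', h1, star_zpow₀, conj_eq_inv hz, _root_.inv_zpow', neg_sub]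

theorem toep_sub {P R : ℂ → Matrix ι ι ℂ} (hP : ContinuousOn P (sphere 0 1))
    (hR : ContinuousOn R (sphere 0 1)) (L : ℕ) :
    toep (fun z => P z - R z) L = toep P L - toep R L := by
  ext x y
  simp only [toep, Matrix.sub_apply, mul_sub]
  unfold av
  exact Real.circleAverage_fun_sub (ci_of_cont (term_cont hP _ _ _)) (ci_of_cont (term_cont hR _ _ _))

omit [Fintype ι] in
theorem toep_const (c : ℂ) (L : ℕ) : toep (fun _ => (c • 1 : Matrix ι ι ℂ)) L = c • 1 := by
  ext x y
  simp only [toep, Matrix.smul_apply, smul_eq_mul]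
  have : (fun z : ℂ => z ^ ((y.2 : ℤ) - (x.2 : ℤ)) * (c * (1 : Matrix ι ι ℂ) x.1 y.1)) =
      fun z => (c * (1 : Matrix ι ι ℂ) x.1 y.1) * z ^ ((y.2 : ℤ) - (x.2 : ℤ)) := by
    ext z; ring
  rw [this, av_smul, av_zpow]
  by_cases h1 : x = y
  · subst h1
    simp
  · rw [Matrix.one_apply_ne h1]
    by_cases h2 : x.1 = y.1
    · have h3 : x.2 ≠ y.2 := fun h => h1 (Prod.ext h2 h)
      have h4 : ((y.2 : ℤ) - (x.2 : ℤ)) ≠ 0 := by
        intro h
        apply h3
        apply Fin.ext
        omega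
      rw [if_neg h4]
      ring
    · rw [Matrix.one_apply_ne h2]
      ring

theorem toep_posSemidef {P : ℂ → Matrix ι ι ℂ} (hP : ContinuousOn P (sphere 0 1))
    (hH : ∀ z ∈ sphere (0 : ℂ) 1, (P z).PosSemidef) (L : ℕ) : (toep P L).PosSemidef := by
  have hh := toep_isHermitian hP (fun z hz => (hH z hz).isHermitian) L
  refine .of_dotProduct_mulVec_nonneg hh fun w => ?_
  rw [Complex.le_def]
  refine ⟨?_, ?_⟩
  · rw [toep_form hP, av_re, Complex.zero_re]
    · refine Real.circleAverage_nonneg_of_nonneg ?_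
      intro z hz
      have hz' : z ∈ sphere (0 : ℂ) 1 := by simpa using hz
      exact (Complex.le_def.1 ((hH z hz').dotProduct_mulVec_nonneg (x := pv w z))).1
    · have h1 : Continuous (pv w) := by
        refine continuous_pi fun a => ?_
        simp only [pv]
        fun_prop
      have h3 : ContinuousOn (fun z => P z *ᵥ pv w z) (sphere 0 1) := by
        refine continuousOn_pi.2 fun a => ?_
        simp only [mulVec, dotProduct]
        refine continuousOn_finsetSum _ fun b _ => (entry_cont hP a b).mul ?_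
        exact ((continuous_apply b).comp h1).continuousOn
      simp only [dotProduct]
      refine continuousOn_finsetSum _ fun a _ => ?_
      refine ContinuousOn.mul ?_ ?_
      · exact (((continuous_apply a).comp h1).star).continuousOn
      · exact (continuous_apply a).comp_continuousOn h3
  · have := hh.im_star_dotProduct_mulVec_self w
    simp only [RCLike.im_to_complex] at this
    rw [this]
    rfl

theorem toep_ge {P : ℂ → Matrix ι ι ℂ} (hP : ContinuousOn P (sphere 0 1)) {δ : ℝ}
    (hH : ∀ z ∈ sphere (0 : ℂ) 1, (P z - (δ : ℂ) • (1 : Matrix ι ι ℂ)).PosSemidef) (L : ℕ) :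
    (toep P L - (δ : ℂ) • (1 : Matrix (ι × Fin L) (ι × Fin L) ℂ)).PosSemidef := by
  rw [← toep_const, ← toep_sub hP continuousOn_const]
  exact toep_posSemidef (hP.sub continuousOn_const) hH L

theorem posDef_of_ge {κ : Type*} [Fintype κ] [DecidableEq κ] {M : Matrix κ κ ℂ} {δ : ℝ}
    (hδ : 0 < δ) (h : (M - (δ : ℂ) • (1 : Matrix κ κ ℂ)).PosSemidef) : M.PosDef := by
  have h1 : ((δ : ℂ) • (1 : Matrix κ κ ℂ)).PosDef := by
    refine Matrix.PosDef.smul (Matrix.PosDef.one) ?_
    exact_mod_cast hδ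
  have := h1.add_posSemidef h
  simpa using this

end Vale.Agent.P272.Sz
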