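import Vale.Agent.P272.H696.S12A
import Vale.Agent.P272.Sz.Main
set_option linter.unusedSectionVars false

/-!
# P272, block Sz: the two circle matrix Szego inequality

`logdet_mean_ge` : the mean over a circle of `A^* P A`, `A` a polynomial matrix with `A(0) = 1`, has
`log det` at least the mean of `log det P`.
`szego_two` : if `c * avg_{|z|=r} p^* P₁ p ≤ avg_{|z|=1} p^* P₂ p` for all polynomial vectors `p`, then
`card * log c + avg_{|z|=r} log det P₁ ≤ avg_{|z|=1} log det P₂`.
-/

namespace Vale.Agent.P272.Sz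

open Matrix Complex Metric MeasureTheory
open scoped ComplexOrder Real

variable {ι : Type*} [Fintype ι] [DecidableEq ι]

/-- Jensen's inequality for a polynomial with value `1` at the centre. -/
theorem jensen_poly {q : Polynomial ℂ} (hq0 : q.eval 0 = 1) (r : ℝ) :
    0 ≤ Real.circleAverage (fun z => Real.log ‖q.eval z‖) 0 r := by
  set q' : Polynomial ℂ := q.comp (Polynomial.C (r : ℂ) * Polynomial.X) with hq'
  have h1 : Real.circleAverage (fun z => Real.log ‖q.eval z‖) 0 r =
      Real.circleAverage (fun z => Real.log ‖q'.eval z‖) 0 1 := by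
    simp only [Real.circleAverage]
    congr 1
    refine intervalIntegral.integral_congr fun θ _ => ?_
    simp only [hq', Polynomial.eval_comp, Polynomial.eval_mul, Polynomial.eval_C, Polynomial.eval_X,
      circleMap]
    congr 4
    push_cast
    ring
  rw [h1]
  have h2 := q'.norm_coeff_le_choose_mul_mahlerMeasure 0
  have h3 : q'.coeff 0 = 1 := by
    rw [Polynomial.coeff_zero_eq_eval_zero, hq', Polynomial.eval_comp]
    simp [hq0]
  rw [h3] at h2
  simp only [norm_one, Nat.choose_zero_right, Nat.cast_one, one_mul] at h2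
  have h4 := q'.logMahlerMeasure_eq_log_MahlerMeasure
  rw [Polynomial.logMahlerMeasure_def] at h4
  rw [h4]
  exact Real.log_nonneg h2

theorem exists_theta {q : Polynomial ℂ} (hq : q ≠ 0) {r : ℝ} (hr : 0 < r) :
    ∀ᵐ θ : ℝ, q.eval (circleMap 0 r θ) ≠ 0 := by
  have h1 : ({z : ℂ | q.eval z = 0}).Countable := by
    have : {z : ℂ | q.eval z = 0} = (q.rootSet ℂ : Set ℂ) := by
      ext z
      simp [Polynomial.mem_rootSet, hq]
    rw [this]
    exact (Polynomial.rootSet_finite q ℂ).countable
  have h2 : (circleMap 0 r ⁻¹' {z : ℂ | q.eval z = 0}).Countable :=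
    h1.preimage_circleMap 0 hr.ne'
  have h3 := h2.measure_zero volume
  rw [ae_iff]
  refine measure_mono_null ?_ h3
  intro θ hθ
  simpa using hθ


/-- The value at `z` of a polynomial matrix. -/
abbrev ev (A : Matrix ι ι (Polynomial ℂ)) (z : ℂ) : Matrix ι ι ℂ := A.map (Polynomial.eval z)

theorem det_ev (A : Matrix ι ι (Polynomial ℂ)) (z : ℂ) : (ev A z).det = A.det.eval z := by
  have := (Polynomial.evalRingHom z).map_det A
  rw [Polynomial.coe_evalRingHom] at this
  rw [this]
  rfl

theorem ev_zero {A : Matrix ι ι (Polynomial ℂ)}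
    (hA : ∀ i j, (A i j).eval 0 = if i = j then 1 else 0) : ev A 0 = 1 := by
  ext i j
  simp [ev, hA, Matrix.one_apply]

theorem ev_cont (A : Matrix ι ι (Polynomial ℂ)) : Continuous (ev A) := by
  refine continuous_matrix fun i j => ?_
  exact (A i j).continuous

/-- The integrand. -/
abbrev mz (A : Matrix ι ι (Polynomial ℂ)) (P : ℂ → Matrix ι ι ℂ) (z : ℂ) : Matrix ι ι ℂ :=
  (ev A z)ᴴ * P z * ev A z

theorem mz_form (A : Matrix ι ι (Polynomial ℂ)) (P : ℂ → Matrix ι ι ℂ) (z : ℂ) (ξ : ι → ℂ) :
    star ξ ⬝ᵥ mz A P z *ᵥ ξ = star (ev A z *ᵥ ξ) ⬝ᵥ P z *ᵥ (ev A z *ᵥ ξ) := by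
  rw [star_mulVec, mz, ← mulVec_mulVec, ← mulVec_mulVec, dotProduct_mulVec]

theorem mz_posDef {A : Matrix ι ι (Polynomial ℂ)} {P : ℂ → Matrix ι ι ℂ} {z : ℂ}
    (hP : (P z).PosDef) (hz : A.det.eval z ≠ 0) : (mz A P z).PosDef := by
  refine hP.conjTranspose_mul_mul_same ?_
  refine Matrix.mulVec_injective_of_isUnit ?_
  rw [Matrix.isUnit_iff_isUnit_det, det_ev, isUnit_iff_ne_zero]
  exact hz

theorem logdet_mz {A : Matrix ι ι (Polynomial ℂ)} {P : ℂ → Matrix ι ι ℂ} {z : ℂ}
    (hP : (P z).PosDef) (hz : A.det.eval z ≠ 0) :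
    Real.log (mz A P z).det.re = 2 * Real.log ‖A.det.eval z‖ + Real.log (P z).det.re := by
  have h1 : (mz A P z).det = ((‖A.det.eval z‖ ^ 2 * (P z).det.re : ℝ) : ℂ) := by
    rw [mz, det_mul, det_mul, det_conjTranspose, det_ev, (det_eq_ofReal hP).1]
    push_cast
    rw [mul_right_comm]
    congr 1
    rw [← starRingEnd_apply]
    exact Complex.conj_mul' _
  rw [h1, Complex.ofReal_re, Real.log_mul (pow_ne_zero _ (norm_ne_zero_iff.2 hz))
    (det_eq_ofReal hP).2.ne', Real.log_pow]
  push_cast
  ring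

/-- The mean of a matrix valued function over a circle. -/
noncomputable def mean (M : ℂ → Matrix ι ι ℂ) (r : ℝ) : Matrix ι ι ℂ :=
  fun i j => Real.circleAverage (fun z => M z i j) 0 r

theorem entry_contOn {s : Set ℂ} {P : ℂ → Matrix ι ι ℂ} (hP : ContinuousOn P s) (a b : ι) :
    ContinuousOn (fun z => P z a b) s := by
  have h : Continuous (fun M : Matrix ι ι ℂ => M a b) := continuous_apply_apply a b
  exact h.comp_continuousOn hP

theorem logdet_contOn {s : Set ℂ} {P : ℂ → Matrix ι ι ℂ} (hP : ContinuousOn P s)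
    (hpd : ∀ z ∈ s, (P z).PosDef) :
    ContinuousOn (fun z => Real.log (P z).det.re) s := by
  refine ContinuousOn.log ?_ fun z hz => (det_eq_ofReal (hpd z hz)).2.ne'
  have h : Continuous (fun M : Matrix ι ι ℂ => M.det) := continuous_id.matrix_det
  exact Complex.continuous_re.comp_continuousOn (h.comp_continuousOn hP)

theorem mean_form {M : ℂ → Matrix ι ι ℂ} {r : ℝ} (hr : 0 ≤ r)
    (hM : ContinuousOn M (sphere 0 r)) (ξ : ι → ℂ) :
    star ξ ⬝ᵥ mean M r *ᵥ ξ = Real.circleAverage (fun z => star ξ ⬝ᵥ M z *ᵥ ξ) 0 r := by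
  have h0 : ∀ a b, ContinuousOn (fun z => star (ξ a) * (M z a b * ξ b)) (sphere 0 r) :=
    fun a b => continuousOn_const.mul ((entry_contOn hM a b).mul continuousOn_const)
  simp only [dotProduct, mulVec, Finset.mul_sum, Pi.star_apply]
  rw [Real.circleAverage_fun_sum]
  · refine Finset.sum_congr rfl fun a _ => ?_
    rw [Real.circleAverage_fun_sum]
    · refine Finset.sum_congr rfl fun b _ => ?_
      have h1 : (fun z => star (ξ a) * (M z a b * ξ b)) =
          fun z => (star (ξ a) * ξ b) • M z a b := by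
        ext z
        simp only [smul_eq_mul]
        ring
      rw [h1, Real.circleAverage_fun_smul, mean, smul_eq_mul]
      ring
    · exact fun b _ => (h0 a b).circleIntegrable hr
  · exact fun a _ => (continuousOn_finsetSum _ fun b _ => h0 a b).circleIntegrable hr

theorem mean_form_re {M : ℂ → Matrix ι ι ℂ} {r : ℝ} (hr : 0 ≤ r)
    (hM : ContinuousOn M (sphere 0 r)) (ξ : ι → ℂ) :
    (star ξ ⬝ᵥ mean M r *ᵥ ξ).re = Real.circleAverage (fun z => (star ξ ⬝ᵥ M z *ᵥ ξ).re) 0 r := by
  rw [mean_form hr hM]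
  have hc : CircleIntegrable (fun z => star ξ ⬝ᵥ M z *ᵥ ξ) 0 r := by
    refine ContinuousOn.circleIntegrable hr ?_
    simp only [dotProduct, mulVec, Pi.star_apply]
    refine continuousOn_finsetSum _ fun a _ => ContinuousOn.mul continuousOn_const ?_
    exact continuousOn_finsetSum _ fun b _ => (entry_contOn hM a b).mul continuousOn_const
  have := Complex.reCLM.circleAverage_comp_comm hc
  exact this.symm

theorem mean_isHermitian {M : ℂ → Matrix ι ι ℂ} {r : ℝ} (hr : 0 ≤ r)
    (hM : ContinuousOn M (sphere 0 r)) (hH : ∀ z ∈ sphere (0 : ℂ) r, (M z).IsHermitian) :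
    (mean M r).IsHermitian := by
  ext a b
  rw [conjTranspose_apply, mean, mean]
  have := (Complex.conjCLE : ℂ →L[ℝ] ℂ).circleAverage_comp_comm
    ((entry_contOn hM b a).circleIntegrable hr)
  refine Eq.trans this.symm ?_
  refine Real.circleAverage_congr_sphere fun z hz => ?_
  rw [abs_of_nonneg hr] at hz
  exact (hH z hz).apply a b

theorem mz_cont {A : Matrix ι ι (Polynomial ℂ)} {P : ℂ → Matrix ι ι ℂ} {s : Set ℂ}
    (hP : ContinuousOn P s) : ContinuousOn (mz A P) s := by
  have h1 : Continuous fun p : Matrix ι ι ℂ × Matrix ι ι ℂ => p.1ᴴ * p.2 * p.1 :=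
    ((continuous_fst.matrix_conjTranspose).matrix_mul continuous_snd).matrix_mul continuous_fst
  have h2 : ContinuousOn (fun z => (ev A z, P z)) s := (ev_cont A).continuousOn.prodMk hP
  have h3 := h1.comp_continuousOn h2
  simpa only [Function.comp_def] using h3

theorem det_ne_zero_of_ev {A : Matrix ι ι (Polynomial ℂ)}
    (hA : ∀ i j, (A i j).eval 0 = if i = j then 1 else 0) : A.det.eval 0 = 1 := by
  rw [← det_ev, ev_zero hA, det_one]

theorem mean_mz_posDef {A : Matrix ι ι (Polynomial ℂ)}
    (hA : ∀ i j, (A i j).eval 0 = if i = j then 1 else 0) {P : ℂ → Matrix ι ι ℂ} {r : ℝ}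
    (hr : 0 < r) (hP : ContinuousOn P (sphere 0 r)) (hpd : ∀ z ∈ sphere (0 : ℂ) r, (P z).PosDef) :
    (mean (mz A P) r).PosDef := by
  have hM := mz_cont (A := A) hP
  have hpsd : ∀ z ∈ sphere (0 : ℂ) r, (mz A P z).PosSemidef := fun z hz =>
    (hpd z hz).posSemidef.conjTranspose_mul_mul_same _
  have hq : A.det ≠ 0 := by
    intro h
    have := det_ne_zero_of_ev hA
    rw [h] at this
    simp at this
  refine PosDef.of_dotProduct_mulVec_pos
    (mean_isHermitian hr.le hM fun z hz => (hpsd z hz).isHermitian) fun {ξ} hξ => ?_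
  have hre : 0 < (star ξ ⬝ᵥ mean (mz A P) r *ᵥ ξ).re := by
    rw [mean_form_re hr.le hM, Real.circleAverage]
    have hpi : (0 : ℝ) < 2 * π := by positivity
    refine mul_pos (inv_pos.2 hpi) ?_
    have hmem : ∀ θ : ℝ, circleMap 0 r θ ∈ sphere (0 : ℂ) r := fun θ =>
      circleMap_mem_sphere _ hr.le θ
    have hfc : ContinuousOn (fun z => (star ξ ⬝ᵥ mz A P z *ᵥ ξ).re) (sphere 0 r) := by
      refine Complex.continuous_re.comp_continuousOn ?_
      simp only [dotProduct, Pi.star_apply]
      refine continuousOn_finsetSum _ fun a _ => ContinuousOn.mul continuousOn_const ?_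
      simp only [mulVec, dotProduct]
      exact continuousOn_finsetSum _ fun b _ => (entry_contOn hM a b).mul continuousOn_const
    refine intervalIntegral.integral_pos hpi ?_ ?_ ?_
    · exact (hfc.comp_continuous (continuous_circleMap 0 r) hmem).continuousOn
    · intro θ _
      exact (Complex.le_def.1 ((hpsd _ (hmem θ)).dotProduct_mulVec_nonneg (x := ξ))).1
    · by_contra hcon
      push Not at hcon
      have h1 := exists_theta hq hr
      have h2 : ∀ᵐ θ : ℝ, θ ∉ Set.Icc (0 : ℝ) (2 * π) := by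
        filter_upwards [h1] with θ hθ hmem'
        have h3 := hcon θ hmem'
        have h4 := (mz_posDef (A := A) (hpd _ (hmem θ)) hθ).dotProduct_mulVec_pos hξ
        have h5 := (Complex.lt_def.1 h4).1
        simp only [Complex.zero_re] at h5
        linarith
      rw [ae_iff] at h2
      simp only [not_not, Set.ofPred_mem_eq, Real.volume_Icc, ENNReal.ofReal_eq_zero] at h2
      linarith
  rw [Complex.lt_def]
  refine ⟨hre, ?_⟩
  have := im_form_eq_zero (mean_isHermitian hr.le hM fun z hz => (hpsd z hz).isHermitian) ξ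
  rw [this]
  rfl

/-- The mean over a circle of `A^* P A` has `log det` at least the mean of `log det P`. -/
theorem logdet_mean_ge {A : Matrix ι ι (Polynomial ℂ)}
    (hA : ∀ i j, (A i j).eval 0 = if i = j then 1 else 0) {P : ℂ → Matrix ι ι ℂ} {r : ℝ}
    (hr : 0 < r) (hP : ContinuousOn P (sphere 0 r)) (hpd : ∀ z ∈ sphere (0 : ℂ) r, (P z).PosDef) :
    Real.circleAverage (fun z => Real.log (P z).det.re) 0 r ≤
      Real.log (mean (mz A P) r).det.re := by
  set G := mean (mz A P) r with hG
  have hGpd : G.PosDef := mean_mz_posDef hA hr hP hpd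
  have hM := mz_cont (A := A) hP
  have hq : A.det ≠ 0 := by
    intro h
    have := det_ne_zero_of_ev hA
    rw [h] at this
    simp at this
  obtain ⟨S, hS⟩ : ∃ S : Matrix ι ι ℂ, G⁻¹ = S * Sᴴ := by
    obtain ⟨R, hR⟩ : ∃ R : Matrix ι ι ℂ, G⁻¹ = Rᴴ * R := by
      open scoped MatrixOrder in
      obtain ⟨R, hR⟩ := CStarAlgebra.nonneg_iff_eq_star_mul_self.mp hGpd.inv.posSemidef.nonneg
      exact ⟨R, hR⟩
    exact ⟨Rᴴ, by rw [hR, conjTranspose_conjTranspose]⟩
  have htr : ∀ M : Matrix ι ι ℂ, (G⁻¹ * M).trace = ∑ k, star (fun a => S a k) ⬝ᵥ M *ᵥ (fun a => S a k) := by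
    intro M
    rw [hS, Matrix.mul_assoc, Matrix.trace_mul_comm, Matrix.mul_assoc]
    simp only [trace, diag, Matrix.mul_apply, dotProduct, mulVec, conjTranspose_apply, Pi.star_apply]
  have hcard : (∑ k, (star (fun a => S a k) ⬝ᵥ G *ᵥ (fun a => S a k)).re) = Fintype.card ι := by
    rw [← Complex.re_sum, ← htr, nonsing_inv_mul G ((Matrix.isUnit_iff_isUnit_det G).1 hGpd.isUnit),
      trace_one]
    simp
  have hmem : ∀ θ : ℝ, circleMap 0 r θ ∈ sphere (0 : ℂ) r := fun θ =>
    circleMap_mem_sphere _ hr.le θ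
  have hfc : ∀ ξ : ι → ℂ, ContinuousOn (fun z => (star ξ ⬝ᵥ mz A P z *ᵥ ξ).re) (sphere 0 r) := by
    intro ξ
    refine Complex.continuous_re.comp_continuousOn ?_
    simp only [dotProduct, Pi.star_apply]
    refine continuousOn_finsetSum _ fun a _ => ContinuousOn.mul continuousOn_const ?_
    simp only [mulVec, dotProduct]
    exact continuousOn_finsetSum _ fun b _ => (entry_contOn hM a b).mul continuousOn_const
  -- the average of the right side
  have hR : Real.circleAverage (fun z => (Real.log G.det.re - Fintype.card ι) +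
      ∑ k, (star (fun a => S a k) ⬝ᵥ mz A P z *ᵥ (fun a => S a k)).re) 0 r = Real.log G.det.re := by
    rw [Real.circleAverage_fun_add, Real.circleAverage_const, Real.circleAverage_fun_sum]
    · have : ∀ k, Real.circleAverage
          (fun z => (star (fun a => S a k) ⬝ᵥ mz A P z *ᵥ (fun a => S a k)).re) 0 r =
          (star (fun a => S a k) ⬝ᵥ G *ᵥ (fun a => S a k)).re := fun k =>
        (mean_form_re hr.le hM _).symm
      simp only [this, hcard]
      ring
    · exact fun k _ => (hfc _).circleIntegrable hr.le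
    · exact continuousOn_const.circleIntegrable hr.le
    · exact (continuousOn_finsetSum _ fun k _ => hfc _).circleIntegrable hr.le
  have hlogP := logdet_contOn hP hpd
  have hlogq : CircleIntegrable (fun z => Real.log ‖A.det.eval z‖) 0 r := by
    refine MeromorphicOn.circleIntegrable_log_norm fun z _ => ?_
    exact (A.det.differentiable.analyticAt z).meromorphicAt
  have hL : CircleIntegrable (fun z => 2 * Real.log ‖A.det.eval z‖ + Real.log (P z).det.re) 0 r :=
    (hlogq.const_mul 2).add (hlogP.circleIntegrable hr.le)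
  have hineq : Real.circleAverage (fun z => 2 * Real.log ‖A.det.eval z‖ + Real.log (P z).det.re) 0 r ≤
      Real.log G.det.re := by
    rw [← hR]
    simp only [Real.circleAverage, smul_eq_mul]
    refine mul_le_mul_of_nonneg_left ?_ (by positivity)
    refine intervalIntegral.integral_mono_ae (by positivity) hL ?_ ?_
    · have := (continuousOn_const (c := Real.log G.det.re - Fintype.card ι)).add
        (continuousOn_finsetSum (Finset.univ : Finset ι) fun k _ => hfc (fun a => S a k))
      exact this.circleIntegrable hr.le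
    · filter_upwards [exists_theta hq hr] with θ hθ
      have h1 := Vale.P272.H696.log_det_le (mz_posDef (A := A) (hpd _ (hmem θ)) hθ) hGpd
      rw [logdet_mz (hpd _ (hmem θ)) hθ, htr, Complex.re_sum] at h1
      linarith
  have hsplit : Real.circleAverage (fun z => 2 * Real.log ‖A.det.eval z‖ + Real.log (P z).det.re) 0 r =
      2 * Real.circleAverage (fun z => Real.log ‖A.det.eval z‖) 0 r +
        Real.circleAverage (fun z => Real.log (P z).det.re) 0 r := by
    have hlogq2 : CircleIntegrable (fun z => 2 * Real.log ‖A.det.eval z‖) 0 r := hlogq.const_mul 2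
    rw [Real.circleAverage_fun_add hlogq2 (hlogP.circleIntegrable hr.le)]
    congr 1
    have := Real.circleAverage_fun_smul (a := (2 : ℝ)) (f := fun z : ℂ => Real.log ‖A.det.eval z‖)
      (c := 0) (R := r)
    simpa [smul_eq_mul] using this
  have hJ := jensen_poly (det_ne_zero_of_ev hA) r
  rw [hsplit] at hineq
  linarith

/-- The minimal polynomial form of the matrix Szego theorem on the unit circle (helper696's
`s12a_line` in circle form). -/
theorem s12a_circ {P : ℂ → Matrix ι ι ℂ}
    (hP : ContinuousOn P (sphere (0 : ℂ) 1)) (hpd : ∀ z ∈ sphere (0 : ℂ) 1, (P z).PosDef)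
    {ε : ℝ} (hε : 0 < ε) :
    ∃ (A : Matrix ι ι (Polynomial ℂ)) (G : Matrix ι ι ℂ),
      (∀ i j, (A i j).eval 0 = if i = j then 1 else 0) ∧ G.PosDef ∧
      (∀ ξ : ι → ℂ, (star ξ ⬝ᵥ G *ᵥ ξ).re =
        Real.circleAverage (fun z => (star (ev A z *ᵥ ξ) ⬝ᵥ P z *ᵥ (ev A z *ᵥ ξ)).re) 0 1) ∧
      Real.log G.det.re ≤ Real.circleAverage (fun z => Real.log (P z).det.re) 0 1 + ε := by
  have hcm : ∀ t : ℝ, circleMap 0 1 t = Vale.P272.H696.ez t := by
    intro t
    simp [circleMap, Vale.P272.H696.ez]
  have hmem : ∀ t : ℝ, Vale.P272.H696.ez t ∈ sphere (0 : ℂ) 1 := by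
    intro t
    simp [Vale.P272.H696.norm_ez]
  have hc : Continuous fun t : ℝ => P (Vale.P272.H696.ez t) :=
    hP.comp_continuous Vale.P272.H696.continuous_ez hmem
  have hper : Function.Periodic (fun t : ℝ => P (Vale.P272.H696.ez t)) (2 * π) := by
    intro t
    have : Vale.P272.H696.ez (t + 2 * π) = Vale.P272.H696.ez t := by
      unfold Vale.P272.H696.ez
      have h := Complex.exp_periodic (t * I)
      rw [← h]
      congr 1
      push_cast
      ring
    simp only [this]
  obtain ⟨A, G, hA0, hG, hform, hlog⟩ :=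
    Vale.P272.H696.s12a_line hc hper (fun t => hpd _ (hmem t)) hε
  refine ⟨A, G, hA0, hG, fun ξ => ?_, ?_⟩
  · rw [hform ξ ξ, ← Complex.ofReal_inv, Complex.re_ofReal_mul, Real.circleAverage]
    simp only [hcm, smul_eq_mul]
    congr 1
    have hAc : Continuous fun t => (A.map (Polynomial.eval (Vale.P272.H696.ez t))) *ᵥ ξ := by
      refine continuous_pi fun i => ?_
      simp only [mulVec, dotProduct, map_apply]
      refine continuous_finsetSum _ fun j _ => ?_
      exact ((A i j).continuous.comp Vale.P272.H696.continuous_ez).mul continuous_const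
    have hcc : Continuous fun t => star ((A.map (Polynomial.eval (Vale.P272.H696.ez t))) *ᵥ ξ) ⬝ᵥ
        P (Vale.P272.H696.ez t) *ᵥ ((A.map (Polynomial.eval (Vale.P272.H696.ez t))) *ᵥ ξ) :=
      (hAc.star).dotProduct (hc.matrix_mulVec hAc)
    exact (intervalIntegral.intervalIntegral_re (hcc.intervalIntegrable _ _)).symm
  · refine hlog.trans (le_of_eq ?_)
    rw [Real.circleAverage]
    simp only [hcm, smul_eq_mul]

/-- **Two circle matrix Szego inequality.** -/
theorem szego_two {P₁ P₂ : ℂ → Matrix ι ι ℂ} {r : ℝ} (hr : 0 < r)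
    (hP₁ : ContinuousOn P₁ (sphere 0 r)) (hpd₁ : ∀ z ∈ sphere (0 : ℂ) r, (P₁ z).PosDef)
    (hP₂ : ContinuousOn P₂ (sphere 0 1)) (hpd₂ : ∀ z ∈ sphere (0 : ℂ) 1, (P₂ z).PosDef)
    {c : ℝ} (hc : 0 < c)
    (H : ∀ p : ι → Polynomial ℂ,
      c * Real.circleAverage
        (fun z => (star (fun a => (p a).eval z) ⬝ᵥ P₁ z *ᵥ (fun a => (p a).eval z)).re) 0 r ≤
      Real.circleAverage
        (fun z => (star (fun a => (p a).eval z) ⬝ᵥ P₂ z *ᵥ (fun a => (p a).eval z)).re) 0 1) :
    Fintype.card ι * Real.log c + Real.circleAverage (fun z => Real.log (P₁ z).det.re) 0 r ≤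
      Real.circleAverage (fun z => Real.log (P₂ z).det.re) 0 1 := by
  refine le_of_forall_pos_le_add fun ε hε => ?_
  obtain ⟨A, G, hA, hG, hform, hlog⟩ := s12a_circ hP₂ hpd₂ hε
  refine le_trans ?_ hlog
  have h1 := logdet_mean_ge hA hr hP₁ hpd₁
  have h2 := mean_mz_posDef hA hr hP₁ hpd₁
  have h3 : (G - (c : ℂ) • mean (mz A P₁) r).PosSemidef := by
    have hH : (G - (c : ℂ) • mean (mz A P₁) r).IsHermitian := by
      refine IsHermitian.sub hG.isHermitian ?_
      rw [IsHermitian, conjTranspose_smul, h2.isHermitian.eq]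
      congr 1
      exact Complex.conj_ofReal _
    refine posSemidef_of_re hH fun ξ => ?_
    rw [sub_mulVec, dotProduct_sub, Complex.sub_re, smul_mulVec, dotProduct_smul, smul_eq_mul,
      Complex.re_ofReal_mul, sub_nonneg, hform ξ, mean_form_re hr.le (mz_cont hP₁)]
    have h4 := H (fun i => ∑ j, A i j * Polynomial.C (ξ j))
    have h5 : ∀ z, (fun a => (∑ j, A a j * Polynomial.C (ξ j)).eval z) = ev A z *ᵥ ξ := by
      intro z
      ext a
      simp [ev, mulVec, dotProduct, Polynomial.eval_finsetSum]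
    simp only [h5] at h4
    simp only [mz_form]
    exact h4
  have hc' : (0 : ℂ) < (c : ℂ) := by exact_mod_cast hc
  have h6 := logdet_le (h2.smul hc') h3
  rw [logdet_smul h2 hc] at h6
  linarith

end Vale.Agent.P272.Sz
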