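import Vale.Agent.P272.Sz.Two
import Vale.Agent.P272.H696.S12
set_option linter.unusedSectionVars false

/-!
# P272, block Sz: the two circle matrix Szego inequality in the `hq` form of `HY`
-/

namespace Vale.Agent.P272.HY

open Matrix Complex Metric MeasureTheory
open scoped ComplexOrder Real
open Vale.Agent.P272.K

/-- **Two circle matrix Szego inequality**, `hq` form. -/
theorem szego_two {n : ℕ} {P₁ P₂ : ℂ → Matrix (Fin n) (Fin n) ℂ} {r : ℝ} (hr : 0 < r)
    (hP₁ : ContinuousOn P₁ (sphere 0 r)) (hpd₁ : ∀ z ∈ sphere (0 : ℂ) r, (P₁ z).PosDef)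
    (hP₂ : ContinuousOn P₂ (sphere 0 1)) (hpd₂ : ∀ z ∈ sphere (0 : ℂ) 1, (P₂ z).PosDef)
    {c : ℝ} (hc : 0 < c)
    (H : ∀ p : Fin n → Polynomial ℂ,
      c * Real.circleAverage (fun z => hq (P₁ z) (fun i => (p i).eval z)) 0 r ≤
        Real.circleAverage (fun z => hq (P₂ z) (fun i => (p i).eval z)) 0 1) :
    n * Real.log c + Real.circleAverage (fun z => Real.log (P₁ z).det.re) 0 r ≤
      Real.circleAverage (fun z => Real.log (P₂ z).det.re) 0 1 := by
  have ht : Continuous (fun M : Matrix (Fin n) (Fin n) ℂ => Mᵀ) := continuous_id.matrix_transpose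
  have h := Sz.szego_two (P₁ := fun z => (P₁ z)ᵀ) (P₂ := fun z => (P₂ z)ᵀ) hr
    (ht.comp_continuousOn hP₁) (fun z hz => (hpd₁ z hz).transpose)
    (ht.comp_continuousOn hP₂) (fun z hz => (hpd₂ z hz).transpose) hc (fun p => by
      have := H p
      simpa only [hq_eq] using this)
  simpa only [det_transpose, Fintype.card_fin] using h

end Vale.Agent.P272.HY
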